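import Vale.Agent.P241.Bdl.B2

/-! The inductive construction of complexes with prescribed types of fixed points. -/

set_option autoImplicit false
set_option linter.unusedVariables false

namespace Vale.Agent.P241.H140

open CategoryTheory Opposite Limits
open Vale.Agent.P241.Based

variable {G : Type} [Group G]

/-- The invariants of the inductive construction. -/
structure StB (K : ℕ → AcTheory) (n : ℕ) (B : Subgroup G) (θ : Subgroup G → ℕ∞)
    (S : Set (Subgroup G)) (Y : GCx G) : Prop where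
  fin : IsFin (Y.fix ⊥)
  iso : ∀ m (y : Y.obj m), y ≠ (Y.obj m).pt → MulAction.stabilizer G y ∈ S
  top : ¬ (K n).Acyclic (Y.fix B)
  typ : ∀ A ∈ S, ∀ j : ℕ, (j : ℕ∞) < θ A → (K j).Acyclic (Y.fix A)

variable {p : ℕ} [hp : Fact p.Prime] (K : ℕ → AcTheory)

/-- One step of the construction. -/
theorem stepB [Finite G] (hG : IsPGroup p G) {D : ∀ (V : Type) [Group V], ℕ → ℕ → Prop}
    (hD : ∀ (V V' : Type) [Group V] [Group V'] (_ : V ≃* V') (m j : ℕ), D V m j → D V' m j)
    (hR : Realization p K D) {n : ℕ} {B : Subgroup G}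
    {θ : Subgroup G → ℕ∞} (hθ : ∀ A g, θ (conj g A) ≤ θ A) {S : Set (Subgroup G)} {Y : GCx G}
    (hY : StB K n B θ S Y) (hup : ∀ A ∈ S, ∀ B, A ≤ B → B ∈ S)
    (hconj : ∀ A ∈ S, ∀ g, conj g A ∈ S) (hB : B ∈ S) {L : Subgroup G} (hL : L ∉ S)
    (hmax : ∀ A, L < A → A ∈ S) (hfinL : θ L ≠ ⊤)
    (hlink : ∀ U : Subgroup G, L < U → ∀ _ : (L.subgroupOf U).Normal, ∀ j m : ℕ,
      θ U ≤ j → θ L = (m + 1 : ℕ) → D (U ⧸ L.subgroupOf U) m j) :
    ∃ Y' : GCx G, StB K n B θ (S ∪ {A | ∃ g, A = conj g L}) Y' := by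
  obtain ⟨t, ht⟩ := ENat.ne_top_iff_exists.1 hfinL
  rcases Nat.eq_zero_or_pos t with h0 | hpos
  · refine ⟨Y, hY.fin, fun m y hy => Or.inl (hY.iso m y hy), hY.top, ?_⟩
    rintro A (hA | ⟨g, rfl⟩) j hj
    · exact hY.typ A hA j hj
    · have := hθ L g
      rw [← ht, h0] at this
      exact absurd (lt_of_lt_of_le hj this) (by simp)
  obtain ⟨m, rfl⟩ : ∃ m, t = m + 1 := ⟨t - 1, by omega⟩
  set N : Subgroup G := Subgroup.normalizer (L : Set G) with hNdef
  have hLN : L ≤ N := Subgroup.le_normalizer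
  have hlt : ∀ V : Subgroup (N ⧸ L.subgroupOf N), V ≠ ⊥ → L < liftSub L N V := by
    intro V hV
    refine lt_of_le_of_ne (le_liftSub hLN V) (fun e => hV ?_)
    rw [Subgroup.eq_bot_iff_forall]
    intro q hq
    obtain ⟨x, rfl⟩ := QuotientGroup.mk_surjective q
    have h1 : x.1 ∈ liftSub L N V := mem_liftSub.2 ⟨x.2, hq⟩
    rw [← e] at h1
    rw [QuotientGroup.eq_one_iff, Subgroup.mem_subgroupOf]
    exact h1
  obtain ⟨T, C, i, hT, hCfin, hinj, hfree, hC⟩ := hR (N ⧸ L.subgroupOf N)
    ((hG.to_subgroup N).to_quotient _) m (Y.sub L N hLN)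
    ((hY.fin.fix (liftSub L N ⊥)).of_iso (subFixIso Y L N hLN ⊥).symm)
    (by
      intro k s hs
      have hs' : s.1 ≠ (Y.obj k).pt := fun e => hs (Subtype.ext e)
      have h1 := hY.iso k s.1 hs'
      have h2 : L ≤ MulAction.stabilizer G s.1 := fun l hl => s.2 l hl
      have h3 : L < MulAction.stabilizer G s.1 := lt_of_le_of_ne h2 (fun e => hL (e ▸ h1))
      obtain ⟨x, hx1, hx2, hx3⟩ := exists_normalizing hG h3
      refine ⟨((⟨x, hx2⟩ : N) : N ⧸ L.subgroupOf N), ?_, Subtype.ext hx1⟩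
      intro e
      rw [QuotientGroup.eq_one_iff, Subgroup.mem_subgroupOf] at e
      exact hx3 e)
    (by
      intro V hV j hj
      have hU : θ (liftSub L N V) ≤ j := by
        by_contra hlt'
        apply hj
        exact (hY.typ (liftSub L N V) (hmax _ (hlt V hV)) j (lt_of_not_ge hlt')).of_iso
          (subFixIso Y L N hLN V).symm
      obtain ⟨hn, ⟨e⟩⟩ := lift_equiv L N V
      exact hD _ _ e.symm _ _ (hlink (liftSub L N V) (hlt V hV) hn j m hU ht.symm))
  have hZfin : FinG (Y.smash T) := (finG_iff.1 hY.fin).smash hT.1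
  let e := smashSubIso Y T L N hLN
  let i' : (Y.smash T).sub L N hLN ⟶ C := e.inv ≫ i
  have hbij : ∀ n, Function.Bijective (e.inv.app n).toFun := by
    intro k
    have h1 : ∀ x, (e.hom.app k).toFun ((e.inv.app k).toFun x) = x := fun x =>
      congrFun (congrArg BGSet.Hom.toFun (e.inv_hom_id_app k)) x
    have h2 : ∀ x, (e.inv.app k).toFun ((e.hom.app k).toFun x) = x := fun x =>
      congrFun (congrArg BGSet.Hom.toFun (e.hom_inv_id_app k)) x
    exact ⟨Function.LeftInverse.injective h1, Function.RightInverse.surjective h2⟩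
  have hi' : ∀ n, Function.Injective (i'.app n).toFun := fun k =>
    (hinj k).comp (hbij k).1
  have hfree' : ∀ n (y : C.obj n), y ∉ Set.range (i'.app n).toFun →
      ∀ w : N ⧸ L.subgroupOf N, w • y = y → w = 1 := by
    intro k y hy
    apply hfree k y
    rintro ⟨x, hx⟩
    obtain ⟨z, rfl⟩ := (hbij k).2 x
    exact hy ⟨z, hx⟩
  have hNmem : ∀ g : G, (∀ l ∈ L, g⁻¹ * l * g ∈ L) → g ∈ N := by
    intro g hg
    rw [hNdef, Subgroup.mem_normalizer_iff'']
    have h1 : conj g⁻¹ L ≤ L := by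
      intro x hx
      rw [mem_conj] at hx
      have := hg _ hx
      simpa [mul_assoc] using this
    have h2 : conj g⁻¹ L = L := by
      apply SetLike.coe_injective
      apply Set.eq_of_subset_of_ncard_le h1
      · have : Nat.card (conj g⁻¹ L) = Nat.card L :=
          Nat.card_congr (L.equivMapOfInjective _ (MulAut.conj g⁻¹).injective).toEquiv.symm
        rw [← Nat.card_coe_set_eq, ← Nat.card_coe_set_eq]
        exact this.ge
    intro x
    constructor
    · exact hg x
    · intro hx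
      rw [← h2, mem_conj] at hx
      simpa [mul_assoc] using hx
  have hfixA : ∀ A ∈ S, ∀ g : G, ∃ k ∈ A, g⁻¹ * k * g ∉ L := by
    intro A hA g
    by_contra hcon
    push Not at hcon
    apply hL
    have h1 : A ≤ conj g L := fun k hk => mem_conj.2 (hcon k hk)
    have h2 := hconj _ (hup A hA _ h1) g⁻¹
    rw [conj_conj, inv_mul_cancel, conj_one] at h2
    exact h2
  refine ⟨glueCx L N hLN (Y.smash T) C i', ?_, ?_, ?_, ?_⟩
  · exact finG_iff.2 (FinG.glue L N hLN i' hZfin (finG_iff.1 hCfin))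
  · intro k z hz
    rcases glue_rep L N hLN (i'.app k) z with ⟨b, rfl⟩ | ⟨g, y, hy, rfl⟩
    · left
      obtain ⟨x, t, rfl⟩ := Smash.exists_rep b
      have hx : x ≠ (Y.obj k).pt := by
        rintro rfl
        apply hz
        show gl L N hLN (i'.app k) _ = gl L N hLN (i'.app k) _
        congr 1
        exact Smash.mk_eq.2 (Or.inr ⟨Or.inl rfl, Or.inl rfl⟩)
      have ht : t ≠ (T.obj k).point := by
        rintro rfl
        apply hz
        show gl L N hLN (i'.app k) _ = gl L N hLN (i'.app k) _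
        congr 1
        exact Smash.mk_eq.2 (Or.inr ⟨Or.inr rfl, Or.inl rfl⟩)
      convert hY.iso k x hx using 1
      ext a
      constructor
      · intro h
        have h0 : gl L N hLN (i'.app k) (Smash.mk (Y.obj k).pt (T.obj k).point (a • x) t) =
            gl L N hLN (i'.app k) (Smash.mk (Y.obj k).pt (T.obj k).point x t) := h
        have h1 := gl_inj L N hLN (i'.app k) (hi' k) h0
        have h2 : Smash.mk (Y.obj k).pt (T.obj k).point (a • x) t = Smash.mk _ _ x t := h1
        rw [Smash.mk_eq] at h2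
        rcases h2 with h2 | h2
        · exact h2.1
        · exact absurd h2.2 (by simp [hx, ht])
      · intro h
        have h' : a • x = x := h
        show gl L N hLN (i'.app k) (Smash.mk (Y.obj k).pt (T.obj k).point (a • x) t) = _
        rw [h']
    · right
      refine ⟨g, ?_⟩
      ext a
      rw [mem_conj]
      constructor
      · intro h
        exact gr_fixed L N hLN _ C i' hi' hfree' hy h
      · intro h
        show gr L N hLN (i'.app k) (a * g) y = _
        have h1 := gr_mul L N hLN (i'.app k) g ⟨_, hLN h⟩ y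
        have h2 : ((⟨_, hLN h⟩ : N) : N ⧸ L.subgroupOf N) = 1 := by
          rw [QuotientGroup.eq_one_iff, Subgroup.mem_subgroupOf]
          exact h
        rw [h2, one_smul] at h1
        rw [← h1]
        congr 1
        simp [mul_assoc]
  · intro h
    apply hY.top
    have h1 := (acyclic_iff (glueFixIso L N hLN _ C i' hi' hfree' B (hfixA B hB))).2 h
    exact (hT.2 G Y hY.fin B n).1 h1
  · rintro A (hA | ⟨g, rfl⟩) j hj
    · have h1 := hY.typ A hA j hj
      exact ((hT.2 G Y hY.fin A j).2 h1).of_iso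
        (glueFixIso L N hLN _ C i' hi' hfree' A (hfixA A hA))
    · have h1 := lt_of_lt_of_le hj (hθ L g)
      rw [← ht] at h1
      have h3 : j < m + 1 := by exact_mod_cast h1
      have h2 := hC j (by omega)
      exact (h2.of_iso (glueFixIso' L N hLN _ C i' hi' hfree' hNmem)).of_iso (conjFixIso _ g L)

/-- The inductive construction, from an arbitrary stage. -/
theorem loopB [Finite G] (hG : IsPGroup p G) {D : ∀ (V : Type) [Group V], ℕ → ℕ → Prop}
    (hD : ∀ (V V' : Type) [Group V] [Group V'] (_ : V ≃* V') (m j : ℕ), D V m j → D V' m j)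
    (hR : Realization p K D) (n : ℕ) (B : Subgroup G)
    {θ : Subgroup G → ℕ∞} (hθ : ∀ A g, θ (conj g A) ≤ θ A)
    (hlink : ∀ L U : Subgroup G, L < U → ∀ _ : (L.subgroupOf U).Normal, ∀ j m : ℕ,
      θ U ≤ j → θ L = (m + 1 : ℕ) → D (U ⧸ L.subgroupOf U) m j) (k : ℕ) :
    ∀ (S : Set (Subgroup G)) (Y : GCx G), StB K n B θ S Y → (∀ A ∈ S, ∀ B, A ≤ B → B ∈ S) →
      (∀ A ∈ S, ∀ g, conj g A ∈ S) → B ∈ S → (∀ A ∉ S, θ A ≠ ⊤) → Sᶜ.ncard ≤ k →
      ∃ Y' : GCx G, StB K n B θ Set.univ Y' := by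
  induction k with
  | zero =>
    intro S Y hY hup hconj hB hfin hk
    have h1 : Sᶜ.Finite := Set.toFinite _
    have h2 : Sᶜ = ∅ := (Set.ncard_eq_zero h1).1 (Nat.le_zero.1 hk)
    have h3 : S = Set.univ := Set.compl_empty_iff.1 h2
    subst h3
    exact ⟨Y, hY⟩
  | succ k ih =>
    intro S Y hY hup hconj hB hfin hk
    by_cases hS : S = Set.univ
    · subst hS
      exact ⟨Y, hY⟩
    obtain ⟨L₀, hL₀⟩ := (Set.ne_univ_iff_exists_notMem S).1 hS
    obtain ⟨L, _, hL⟩ := (Set.toFinite {L : Subgroup G | L ∉ S}).exists_le_maximal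
      (show L₀ ∈ {L : Subgroup G | L ∉ S} from hL₀)
    have hLS : L ∉ S := hL.prop
    have hmax : ∀ A, L < A → A ∈ S := by
      intro A hA
      by_contra hAS
      exact absurd (hL.le_of_ge hAS hA.le) (not_le_of_gt hA)
    obtain ⟨Y', hY'⟩ := stepB K hG hD hR hθ hY hup hconj hB hLS hmax (hfin L hLS)
      (fun U => hlink L U)
    refine ih (S ∪ {A | ∃ g, A = conj g L}) Y' hY' ?_ ?_ (Or.inl hB)
      (fun A hA => hfin A (fun h => hA (Or.inl h))) ?_
    · rintro A (hA | ⟨g, rfl⟩) B hB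
      · exact Or.inl (hup A hA B hB)
      · have h1 : L ≤ conj g⁻¹ B := (conj_le_iff g).1 hB
        rcases h1.eq_or_lt with h2 | h2
        · right
          refine ⟨g, ?_⟩
          rw [h2, conj_conj, mul_inv_cancel, conj_one]
        · left
          have h3 := hconj _ (hmax _ h2) g
          rwa [conj_conj, mul_inv_cancel, conj_one] at h3
    · rintro A (hA | ⟨g, rfl⟩) g'
      · exact Or.inl (hconj A hA g')
      · exact Or.inr ⟨g' * g, conj_conj _ _ _⟩
    · have h1 : (S ∪ {A | ∃ g, A = conj g L})ᶜ ⊂ Sᶜ := by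
        refine ⟨fun A hA hAS => hA (Or.inl hAS), fun h => ?_⟩
        exact h hLS (Or.inr ⟨1, (conj_one L).symm⟩)
      have h2 := Set.ncard_lt_ncard h1 (Set.toFinite _)
      omega

end Vale.Agent.P241.H140
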