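import Vale.Agent.P241.Bdl.K_F_Defs

namespace Vale.Agent.P241.F

/-- The conjugate subgroup `g A g⁻¹`. -/
def cong {G : Type} [Group G] (g : G) (A : Subgroup G) : Subgroup G :=
  A.map (MulAut.conj g).toMonoidHom

/-- `θ` is the type function of the `G`-complex `X` on the `p`-subgroups `A` of `G`: the fixed
points `X ^ A` are `K j`-acyclic exactly for `j < θ A` (for all `j` if `θ A = ⊤`). -/
def HasType (p : ℕ) (K : ℕ → Homology) {G : FiniteGrp.{0}} (X : GCx G)
    (θ : Subgroup G → ℕ∞) : Prop :=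
  ∀ A : Subgroup G, IsPGroup p A → ∀ j : ℕ, FixAcyclic (K j) X A ↔ (j : ℕ∞) < θ A

/-- On `p`-subgroups, `θ` is constant on conjugacy classes and satisfies
`θ A ≤ θ B + ℓ(B, A)` for all `A ≤ B`. -/
def Compatible (p : ℕ) {G : Type} [Group G] (θ : Subgroup G → ℕ∞) : Prop :=
  ∀ B : Subgroup G, IsPGroup p B → (∀ g, θ (cong g B) = θ B) ∧
    ∀ A ≤ B, θ A ≤ θ B + ell (A.subgroupOf B)

end Vale.Agent.P241.F
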