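import Vale.Agent.P241.H140.Wedge

/-! Induced complexes `G₊ ∧_S Y`. -/

set_option autoImplicit false
set_option linter.unusedVariables false

namespace Vale.Agent.P241.H140

open Vale.Agent.P241.F

variable {G : FiniteGrp.{0}} (S : Subgroup G) (Y : GCx (.of S))

/-- The action of an element of `S` on `Y`. -/
def sact (s : S) : Map Y.toBSS Y.toBSS := Y.act s

theorem sact_one (n : ℕ) (x : Y.S n) : (sact S Y 1).f n x = x := Y.act_one n x

theorem sact_mul (s t : S) (n : ℕ) (x : Y.S n) :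
    (sact S Y (s * t)).f n x = (sact S Y s).f n ((sact S Y t).f n x) := Y.act_mul s t n x

theorem sact_pt (s : S) (n : ℕ) : (sact S Y s).f n (Y.pt n) = Y.pt n := (sact S Y s).f_pt n

theorem sact_op (s : S) {m n : ℕ} (a : Op m n) (x : Y.S n) :
    (sact S Y s).f m (Y.op a x) = Y.op a ((sact S Y s).f n x) := (sact S Y s).f_op a x

/-- The induced complex `G₊ ∧_S Y`: equivariant functions supported on one coset. -/
def indCx : GCx G where
  S n := {z : G → Y.S n // (∀ (g : G) (s : S), z (g * s) = (sact S Y s⁻¹).f n (z g)) ∧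
    ∀ g g', z g ≠ Y.pt n → z g' ≠ Y.pt n → g⁻¹ * g' ∈ S}
  pt n := ⟨fun _ => Y.pt n, fun g s => (sact_pt S Y s⁻¹ n).symm, fun g g' h => absurd rfl h⟩
  op {m n} a z := ⟨fun g => Y.op a (z.1 g), fun g s => by
      change Y.op a (z.1 (g * s)) = (sact S Y s⁻¹).f m (Y.op a (z.1 g))
      rw [z.2.1, sact_op],
    fun g g' h h' => z.2.2 g g'
      (fun h1 => h ((congrArg (Y.op a) h1).trans (Y.op_pt a)))
      (fun h1 => h' ((congrArg (Y.op a) h1).trans (Y.op_pt a)))⟩
  op_pt a := Subtype.ext (funext fun _ => Y.op_pt a)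
  op_id z := Subtype.ext (funext fun _ => Y.op_id _)
  op_comp a b z := Subtype.ext (funext fun _ => Y.op_comp a b _)
  act k := ⟨fun n z => ⟨fun g => z.1 (k⁻¹ * g), fun g s => by
        change z.1 (k⁻¹ * (g * s)) = _
        rw [← mul_assoc, z.2.1],
      fun g g' h h' => by
        have h1 := z.2.2 _ _ h h'
        have h2 : (k⁻¹ * g)⁻¹ * (k⁻¹ * g') = g⁻¹ * g' := by group
        rwa [h2] at h1⟩,
    fun n => rfl, fun {m n} a z => rfl⟩
  act_one n z := Subtype.ext (funext fun g => by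
    change z.1 ((1 : G)⁻¹ * g) = z.1 g
    rw [inv_one, one_mul])
  act_mul k l n z := Subtype.ext (funext fun g => by
    change z.1 ((k * l)⁻¹ * g) = z.1 (l⁻¹ * (k⁻¹ * g))
    rw [mul_inv_rev, mul_assoc])

open Classical in
/-- The value at `k` of the simplex `g ∧ y`. -/
noncomputable def ival (g : G) {n : ℕ} (y : Y.S n) (k : G) : Y.S n :=
  if h : g⁻¹ * k ∈ S then (sact S Y (⟨g⁻¹ * k, h⟩ : S)⁻¹).f n y else Y.pt n

theorem ival_pos (g : G) {n : ℕ} (y : Y.S n) (k : G) (h : g⁻¹ * k ∈ S) :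
    ival S Y g y k = (sact S Y (⟨g⁻¹ * k, h⟩ : S)⁻¹).f n y := dif_pos h

theorem ival_neg (g : G) {n : ℕ} (y : Y.S n) (k : G) (h : ¬ g⁻¹ * k ∈ S) :
    ival S Y g y k = Y.pt n := dif_neg h

/-- The inclusion of the summand of the coset `g S`. -/
noncomputable def indIn (g : G) : Map Y.toBSS (indCx S Y).toBSS where
  f n y := ⟨ival S Y g y, by
      intro k s
      by_cases h : g⁻¹ * k ∈ S
      · have h' : g⁻¹ * (k * s) ∈ S := by
          rw [← mul_assoc]
          exact S.mul_mem h s.2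
        rw [ival_pos S Y g y k h, ival_pos S Y g y (k * s) h', ← sact_mul]
        have h1 : (⟨g⁻¹ * (k * s), h'⟩ : S) = ⟨g⁻¹ * k, h⟩ * s :=
          Subtype.ext (mul_assoc _ _ _).symm
        rw [h1, mul_inv_rev]
      · have h' : ¬ g⁻¹ * (k * s) ∈ S := by
          rw [← mul_assoc]
          intro h'
          exact h ((S.mul_mem_cancel_right s.2).1 h')
        rw [ival_neg S Y g y k h, ival_neg S Y g y (k * s) h', sact_pt], by
      intro k k' hk hk'
      by_cases h : g⁻¹ * k ∈ S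
      · by_cases h' : g⁻¹ * k' ∈ S
        · have h1 : k⁻¹ * k' = (g⁻¹ * k)⁻¹ * (g⁻¹ * k') := by group
          rw [h1]
          exact S.mul_mem (S.inv_mem h) h'
        · exact absurd (ival_neg S Y g y k' h') hk'
      · exact absurd (ival_neg S Y g y k h) hk⟩
  f_pt n := Subtype.ext (funext fun k => by
    change ival S Y g (Y.pt n) k = Y.pt n
    by_cases h : g⁻¹ * k ∈ S
    · rw [ival_pos S Y g _ k h, sact_pt]
    · rw [ival_neg S Y g _ k h])
  f_op {m n} a y := Subtype.ext (funext fun k => by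
    change ival S Y g (Y.op a y) k = Y.op a (ival S Y g y k)
    by_cases h : g⁻¹ * k ∈ S
    · rw [ival_pos S Y g _ k h, ival_pos S Y g _ k h, sact_op]
    · rw [ival_neg S Y g _ k h, ival_neg S Y g _ k h, Y.op_pt])

theorem indIn_apply (g : G) {n : ℕ} (y : Y.S n) (k : G) (h : g⁻¹ * k ∈ S) :
    ((indIn S Y g).f n y).1 k = (sact S Y (⟨g⁻¹ * k, h⟩ : S)⁻¹).f n y :=
  ival_pos S Y g y k h

theorem indIn_apply_ne (g : G) {n : ℕ} (y : Y.S n) (k : G) (h : ¬ g⁻¹ * k ∈ S) :
    ((indIn S Y g).f n y).1 k = Y.pt n := ival_neg S Y g y k h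

theorem indIn_self (g : G) {n : ℕ} (y : Y.S n) : ((indIn S Y g).f n y).1 g = y := by
  have h : g⁻¹ * g ∈ S := by
    rw [inv_mul_cancel]
    exact S.one_mem
  rw [indIn_apply S Y g y g h]
  have h1 : (⟨g⁻¹ * g, h⟩ : S)⁻¹ = 1 := by
    rw [inv_eq_one]
    exact Subtype.ext (inv_mul_cancel g)
  rw [h1]
  exact sact_one S Y n y

/-- A simplex with nontrivial value at `g` is determined by this value. -/
theorem eq_indIn {n : ℕ} (z : (indCx S Y).S n) (g : G) (hz : z.1 g ≠ Y.pt n) :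
    z = (indIn S Y g).f n (z.1 g) := by
  refine Subtype.ext (funext fun k => ?_)
  by_cases h : g⁻¹ * k ∈ S
  · rw [indIn_apply S Y g _ k h, ← z.2.1 g ⟨g⁻¹ * k, h⟩]
    have h1 : g * (g⁻¹ * k) = k := by rw [mul_inv_cancel_left]
    exact (congrArg z.1 h1).symm
  · rw [indIn_apply_ne S Y g _ k h]
    by_contra hk
    exact h (z.2.2 g k hz hk)

theorem isFin_indCx (hY : Y.IsFin) : (indCx S Y).IsFin := by
  obtain ⟨h1, d, h2⟩ := hY
  refine ⟨fun n => ?_, d, fun n z => ?_⟩
  · have := h1 n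
    exact Finite.of_injective (fun z : (indCx S Y).S n => z.1) Subtype.val_injective
  · by_cases hz : ∃ g, z.1 g ≠ Y.pt n
    · obtain ⟨g, hg⟩ := hz
      obtain ⟨k, hk, a, y, hy⟩ := h2 n (z.1 g)
      refine ⟨k, hk, a, (indIn S Y g).f k y, ?_⟩
      rw [← (indIn S Y g).f_op, hy]
      exact (eq_indIn S Y z g hg).symm
    · push Not at hz
      refine ⟨0, Nat.zero_le _, OrderHom.const _ 0, (indCx S Y).pt 0, ?_⟩
      rw [(indCx S Y).op_pt]
      exact Subtype.ext (funext fun i => (hz i).symm)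

theorem mem_cong {G : Type} [Group G] {g x : G} {A : Subgroup G} :
    x ∈ A.map (MulAut.conj g).toMonoidHom ↔ g⁻¹ * x * g ∈ A :=
  Based.mem_conj

theorem le_of_fixes {A : Subgroup G} {g : G} (h : ∀ a ∈ A, a • (g : G ⧸ S) = (g : G ⧸ S)) :
    A.map (MulAut.conj g⁻¹).toMonoidHom ≤ S := by
  intro k hk
  rw [mem_cong, inv_inv] at hk
  have h2 := h _ hk
  have h3 : ((g * k * g⁻¹ * g : G) : G ⧸ S) = (g : G ⧸ S) := h2
  rw [QuotientGroup.eq] at h3
  have h4 : (g * k * g⁻¹ * g)⁻¹ * g = k⁻¹ := by group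
  rw [h4] at h3
  exact S.inv_mem_iff.1 h3

/-- The support of a fixed simplex. -/
theorem ind_fixed {n : ℕ} (z : (indCx S Y).S n) (A : Subgroup G)
    (h : ∀ a ∈ A, ((indCx S Y).act a).f n z = z) (g : G) (hg : z.1 g ≠ Y.pt n) :
    (∀ a ∈ A, a • (g : G ⧸ S) = (g : G ⧸ S)) ∧
      ∀ s ∈ (A.map (MulAut.conj g⁻¹).toMonoidHom).subgroupOf S,
        (sact S Y s).f n (z.1 g) = z.1 g := by
  constructor
  · intro a ha
    have h1 : z.1 (a⁻¹ * (a * g)) = z.1 (a * g) := congrFun (congrArg Subtype.val (h a ha)) (a * g)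
    rw [inv_mul_cancel_left] at h1
    have h2 : z.1 (a * g) ≠ Y.pt n := by rwa [← h1]
    change ((a * g : G) : G ⧸ S) = (g : G ⧸ S)
    rw [QuotientGroup.eq]
    exact z.2.2 _ _ h2 hg
  · intro s hs
    have h0 := Subgroup.mem_subgroupOf.1 hs
    rw [mem_cong, inv_inv] at h0
    have h1 : z.1 ((g * s * g⁻¹)⁻¹ * g) = z.1 g := congrFun (congrArg Subtype.val (h _ h0)) g
    have h2 : (g * s * g⁻¹)⁻¹ * g = g * ((s⁻¹ : S) : G) := by
      rw [Subgroup.coe_inv]
      group
    rw [h2, z.2.1, inv_inv] at h1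
    exact h1

theorem fixAcyclic_indCx (hY : Y.IsFin) (E : Homology) (A : Subgroup G) :
    FixAcyclic E (indCx S Y) A ↔ ∀ x : G ⧸ S, (∀ a ∈ A, a • x = x) →
      FixAcyclic E Y ((A.map (MulAut.conj x.out⁻¹).toMonoidHom).subgroupOf S) := by
  classical
  let F := {x : G ⧸ S // ∀ a ∈ A, a • x = x}
  choose W m hW hm using fun x : F => exists_isFixF Y hY
    ((A.map (MulAut.conj x.1.out⁻¹).toMonoidHom).subgroupOf S)
  have hout : ∀ g : G, (g : G ⧸ S).out⁻¹ * g ∈ S := by
    intro g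
    rw [← QuotientGroup.eq]
    exact QuotientGroup.out_eq' _
  -- the sum of the inclusions
  let φ : ∀ n, (wed W Set.univ).S n → G → Y.S n := fun n z g =>
    if h : ∀ a ∈ A, a • (g : G ⧸ S) = (g : G ⧸ S) then
      ((indIn S Y (g : G ⧸ S).out).f n ((m ⟨(g : G ⧸ S), h⟩).f n (z.1 ⟨(g : G ⧸ S), h⟩))).1 g
    else Y.pt n
  have hφ : ∀ n (z : (wed W Set.univ).S n) (g : G)
      (h : ∀ a ∈ A, a • (g : G ⧸ S) = (g : G ⧸ S)), φ n z g =
      ((indIn S Y (g : G ⧸ S).out).f n ((m ⟨(g : G ⧸ S), h⟩).f n (z.1 ⟨(g : G ⧸ S), h⟩))).1 g :=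
    fun n z g h => dif_pos h
  have hφ' : ∀ n (z : (wed W Set.univ).S n) (g : G)
      (h : ¬ ∀ a ∈ A, a • (g : G ⧸ S) = (g : G ⧸ S)), φ n z g = Y.pt n :=
    fun n z g h => dif_neg h
  have hφx : ∀ n (z : (wed W Set.univ).S n) (x : F) (g : G), (g : G ⧸ S) = x.1 →
      φ n z g = ((indIn S Y x.1.out).f n ((m x).f n (z.1 x))).1 g := by
    rintro n z ⟨x, hx⟩ g rfl
    exact hφ n z g hx
  have hpt : ∀ n (z : (wed W Set.univ).S n) (g : G), φ n z g ≠ Y.pt n →
      ∃ x : F, (g : G ⧸ S) = x.1 ∧ z.1 x ≠ (W x).pt n := by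
    intro n z g hg
    by_cases h : ∀ a ∈ A, a • (g : G ⧸ S) = (g : G ⧸ S)
    · refine ⟨⟨(g : G ⧸ S), h⟩, rfl, fun h1 => hg ?_⟩
      rw [hφ n z g h, h1, (m _).f_pt, (indIn S Y _).f_pt]
      rfl
    · exact absurd (hφ' n z g h) hg
  let μ : Map (wed W Set.univ) (indCx S Y).toBSS :=
    ⟨fun n z => ⟨φ n z, fun g s => by
        have hgs : ((g * s : G) : G ⧸ S) = (g : G ⧸ S) := by
          rw [QuotientGroup.eq]
          have : (g * s)⁻¹ * g = ((s⁻¹ : S) : G) := by
            rw [Subgroup.coe_inv]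
            group
          rw [this]
          exact (s⁻¹).2
        by_cases h : ∀ a ∈ A, a • (g : G ⧸ S) = (g : G ⧸ S)
        · rw [hφx n z ⟨(g : G ⧸ S), h⟩ (g * s) hgs, hφx n z ⟨(g : G ⧸ S), h⟩ g rfl]
          exact ((indIn S Y _).f n _).2.1 g s
        · rw [hφ' n z g h, hφ' n z (g * s) (by rw [hgs]; exact h), sact_pt],
      fun g g' h h' => by
        obtain ⟨x, hx, hx'⟩ := hpt n z g h
        obtain ⟨y, hy, hy'⟩ := hpt n z g' h'
        have hxy : x = y := by
          by_contra hne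
          rcases z.2.1 x y hne with h1 | h1
          · exact hx' h1
          · exact hy' h1
        rw [← QuotientGroup.eq, hx, hy, hxy]⟩,
    fun n => Subtype.ext (funext fun g => by
      by_contra hne
      obtain ⟨x, _, hx⟩ := hpt n ((wed W Set.univ).pt n) g hne
      exact hx rfl),
    fun {k n} a z => Subtype.ext (funext fun g => by
      change φ k ((wed W Set.univ).op a z) g = Y.op a (φ n z g)
      by_cases h : ∀ a ∈ A, a • (g : G ⧸ S) = (g : G ⧸ S)
      · rw [hφ k _ g h, hφ n _ g h]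
        have h1 : ((wed W Set.univ).op a z).1 ⟨(g : G ⧸ S), h⟩ =
          (W _).op a (z.1 ⟨(g : G ⧸ S), h⟩) := rfl
        rw [h1, (m _).f_op, (indIn S Y _).f_op]
        rfl
      · rw [hφ' k _ g h, hφ' n _ g h, Y.op_pt])⟩
  have hμ : IsFixF (indCx S Y) A μ := by
    intro n
    refine ⟨?_, ?_⟩
    · intro z z' hzz
      refine Subtype.ext (funext fun x => (hm x n).1 ?_)
      have hx : ((x.1.out : G) : G ⧸ S) = x.1 := QuotientGroup.out_eq' _
      have h1 : φ n z x.1.out = φ n z' x.1.out := congrFun (congrArg Subtype.val hzz) x.1.out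
      rwa [hφx n z x x.1.out hx, hφx n z' x x.1.out hx, indIn_self, indIn_self] at h1
    · intro z
      constructor
      · intro hz
        have hfix : ∀ x : F, ∃ w, (m x).f n w = z.1 x.1.out := by
          intro x
          by_cases h0 : z.1 x.1.out = Y.pt n
          · exact ⟨(W x).pt n, by rw [h0]; exact (m x).f_pt n⟩
          · exact ((hm x n).2 _).1 (ind_fixed S Y z A hz x.1.out h0).2
        choose w hw using hfix
        have hwpt : ∀ x, z.1 x.1.out = Y.pt n → w x = (W x).pt n := by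
          intro x hx
          apply (hm x n).1
          rw [hw, hx]
          exact ((m x).f_pt n).symm
        refine ⟨⟨w, fun x y hxy => ?_, fun i hi => absurd (Set.mem_univ i) hi⟩,
          Subtype.ext (funext fun g => ?_)⟩
        · by_cases hx : z.1 x.1.out = Y.pt n
          · exact Or.inl (hwpt x hx)
          · right
            apply hwpt y
            by_contra hy
            have h1 := z.2.2 _ _ hx hy
            rw [← QuotientGroup.eq, QuotientGroup.out_eq', QuotientGroup.out_eq'] at h1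
            exact hxy (Subtype.ext h1)
        · change φ n _ g = z.1 g
          by_cases h : ∀ a ∈ A, a • (g : G ⧸ S) = (g : G ⧸ S)
          · refine (hφ n _ g h).trans ?_
            change ((indIn S Y (g : G ⧸ S).out).f n ((m ⟨(g : G ⧸ S), h⟩).f n
              (w ⟨(g : G ⧸ S), h⟩))).1 g = z.1 g
            rw [hw, indIn_apply S Y _ _ g (hout g), ← z.2.1]
            have h1 : (g : G ⧸ S).out * ((g : G ⧸ S).out⁻¹ * g) = g := by
              rw [mul_inv_cancel_left]
            exact congrArg z.1 h1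
          · refine (hφ' n _ g h).trans ?_
            by_contra hne
            exact h (ind_fixed S Y z A hz g (fun h1 => hne h1.symm)).1
      · rintro ⟨w, rfl⟩ a ha
        refine Subtype.ext (funext fun g => ?_)
        change φ n w (a⁻¹ * g) = φ n w g
        by_cases h : ∀ a ∈ A, a • (g : G ⧸ S) = (g : G ⧸ S)
        · have h1 : ((a⁻¹ * g : G) : G ⧸ S) = (g : G ⧸ S) := h a⁻¹ (A.inv_mem ha)
          rw [hφx n w ⟨(g : G ⧸ S), h⟩ _ h1, hφx n w ⟨(g : G ⧸ S), h⟩ g rfl]
          have h2 : (g : G ⧸ S).out⁻¹ * (a⁻¹ * g) ∈ S := by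
            rw [← QuotientGroup.eq, h1]
            exact QuotientGroup.out_eq' _
          rw [indIn_apply S Y _ _ g (hout g), indIn_apply S Y _ _ _ h2]
          set t : G := (g : G ⧸ S).out with ht
          have ht' : (t : G ⧸ S) = (g : G ⧸ S) := QuotientGroup.out_eq' _
          have h3 : t⁻¹ * a * t ∈ S := by
            rw [mul_assoc, ← QuotientGroup.eq]
            have h4 := h a ha
            rw [← ht'] at h4
            exact h4.symm
          have h5 : (sact S Y (⟨t⁻¹ * a * t, h3⟩ : S)).f n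
              ((m ⟨(g : G ⧸ S), h⟩).f n (w.1 ⟨(g : G ⧸ S), h⟩)) =
              (m ⟨(g : G ⧸ S), h⟩).f n (w.1 ⟨(g : G ⧸ S), h⟩) := by
            refine ((hm ⟨(g : G ⧸ S), h⟩ n).2 _).2 ⟨_, rfl⟩ _ ?_
            have h8 : t⁻¹ * a * t ∈ A.map (MulAut.conj t⁻¹).toMonoidHom := by
              rw [mem_cong, inv_inv]
              have h6 : t * (t⁻¹ * a * t) * t⁻¹ = a := by group
              rwa [h6]
            exact h8
          have h7 : (⟨t⁻¹ * (a⁻¹ * g), h2⟩ : S)⁻¹ =
              (⟨t⁻¹ * g, hout g⟩ : S)⁻¹ * ⟨t⁻¹ * a * t, h3⟩ := by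
            apply Subtype.ext
            change (t⁻¹ * (a⁻¹ * g))⁻¹ = (t⁻¹ * g)⁻¹ * (t⁻¹ * a * t)
            group
          rw [h7, sact_mul, h5]
        · have h1 : ¬ ∀ b ∈ A, b • ((a⁻¹ * g : G) : G ⧸ S) = ((a⁻¹ * g : G) : G ⧸ S) := by
            intro h3
            apply h
            intro b hb
            have h4 := h3 (a⁻¹ * b * a) (A.mul_mem (A.mul_mem (A.inv_mem ha) hb) ha)
            have h5 : ((a⁻¹ * g : G) : G ⧸ S) = a⁻¹ • (g : G ⧸ S) := rfl
            rw [h5, ← mul_smul, mul_assoc, mul_assoc, mul_inv_cancel, mul_one, mul_smul] at h4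
            exact smul_left_cancel _ h4
          rw [hφ' n w _ h1, hφ' n w g h]
  rw [fixAcyclic_iffF E hμ, acyclic_wed_iff]
  exact ⟨fun h x hx => (fixAcyclic_iffF E (hm ⟨x, hx⟩)).2 (h ⟨x, hx⟩),
    fun h x => (fixAcyclic_iffF E (hm x)).1 (h x.1 x.2)⟩

end Vale.Agent.P241.H140
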