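import Vale.Agent.P241.H140.Real
import Vale.Agent.P241.H140.Induct

/-! Type functions on the `p`-subgroups of an arbitrary finite group. -/

set_option autoImplicit false
set_option linter.unusedVariables false

namespace Vale.Agent.P241.H140

open Vale.Agent.P241.F

theorem mem_cong' {G : Type} [Group G] {g x : G} {A : Subgroup G} :
    x ∈ cong g A ↔ g⁻¹ * x * g ∈ A := mem_cong

section

variable {p : ℕ} [hp : Fact p.Prime] {K : ℕ → Homology} {T : ℕ → Tel p}
  (hab : ∀ A : FiniteGrp.{0}, IsPGroup p A → IsMulCommutative A → ∀ n r,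
    Smith (K (n + r)) (K n) (⊥ : Subgroup A) ↔ Group.rank A ≤ r)
  (halive : ∀ t, ∀ A : FiniteGrp.{0}, IsPGroup p A → ¬ (T t).Dead A →
    Smith (K (t + 1)) (K 0) (⊥ : Subgroup A))
  {B : ℕ → FiniteGrp.{0} → Homology}
  (hN : ∀ (t : ℕ) (V : FiniteGrp.{0}) (Y : BSS), Y.IsFin → ¬ (B t V).Acyclic Y →
    ∃ j, ¬ (K j).Acyclic Y ∧ ∀ A : FiniteGrp.{0}, IsPGroup p A → IsMulCommutative A →
      Group.rank A ≤ j → ¬ (T t).Dead (.of (V × A)))
  (hR : ∀ W : FiniteGrp.{0}, IsPGroup p W → ∀ (S : GCx W) (r : ℕ), S.IsFin →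
    (∀ V : Subgroup W, V ≠ ⊥ → ∀ t < r, FixAcyclic (B t (.of V)) S V) → Attachable K r S)
include hab halive hN hR

/-- Every compatible function is the type function of a finite complex, whose fixed points
under subgroups which are not `p`-groups are trivial. -/
theorem exists_of_compatible (G : FiniteGrp.{0}) {θ : Subgroup G → ℕ∞}
    (hθ : Compatible p θ) : ∃ X : GCx G, X.IsFin ∧ HasType p K X θ ∧
      ∀ A : Subgroup G, ¬ IsPGroup p A → ∀ E, FixAcyclic E X A := by
  let P : Sylow p G := default
  let S : Subgroup G := P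
  have hS : IsPGroup p S := P.isPGroup'
  let θS : Subgroup S → ℕ∞ := fun D => θ (D.map S.subtype)
  have hpD : ∀ D : Subgroup S, IsPGroup p (D.map S.subtype) := fun D =>
    hS.to_le (Subgroup.map_subtype_le D)
  have hθS : Comp θS := by
    refine ⟨?_, ?_⟩
    · intro D s
      have h1 : (cong s D).map S.subtype = cong (s : G) (D.map S.subtype) := by
        unfold cong
        rw [Subgroup.map_map, Subgroup.map_map]
        congr 1
      change θ ((cong s D).map S.subtype) = θ (D.map S.subtype)
      rw [h1]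
      exact (hθ _ (hpD D)).1 _
    · intro D D' h
      refine ((hθ _ (hpD D')).2 _ (Subgroup.map_mono h)).trans ?_
      refine add_le_add_right ?_ _
      have h1 := ell_rel_map (hS.to_subgroup D') h S.subtype
      exact_mod_cast h1
  obtain ⟨Y, hY, hYθ⟩ := exists_of_comp hab halive hN hR (G := .of S) hS hθS
  have hfix : ∀ (A : Subgroup G) (x : G ⧸ S), (∀ a ∈ A, a • x = x) →
      A.map (MulAut.conj x.out⁻¹).toMonoidHom ≤ S := by
    intro A x hx
    apply le_of_fixes S
    rw [QuotientGroup.out_eq']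
    exact hx
  refine ⟨indCx S Y, isFin_indCx S Y hY, ?_, ?_⟩
  · intro A hA j
    rw [fixAcyclic_indCx S Y hY]
    have hval : ∀ x : G ⧸ S, (∀ a ∈ A, a • x = x) →
        (FixAcyclic (K j) Y ((A.map (MulAut.conj x.out⁻¹).toMonoidHom).subgroupOf S) ↔
          (j : ℕ∞) < θ A) := by
      intro x hx
      have h1 : θS ((A.map (MulAut.conj x.out⁻¹).toMonoidHom).subgroupOf S) = θ A := by
        change θ (((A.map (MulAut.conj x.out⁻¹).toMonoidHom).subgroupOf S).map S.subtype) = θ A
        rw [Subgroup.subgroupOf_map_subtype, inf_eq_left.2 (hfix A x hx)]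
        exact (hθ A hA).1 _
      rw [← h1]
      exact hYθ _ j
    constructor
    · intro h
      obtain ⟨Q, hQ⟩ := hA.exists_le_sylow
      obtain ⟨g, hg⟩ := MulAction.exists_smul_eq G P Q
      have hx : ∀ a ∈ A, a • ((g : G) : G ⧸ S) = ((g : G) : G ⧸ S) := by
        intro a ha
        have h1 : a ∈ (g • P : Sylow p G) := by
          rw [hg]
          exact hQ ha
        have h2 : g⁻¹ * a * g ∈ S := by
          have h3 : a ∈ ((g • P : Sylow p G) : Subgroup G) := h1
          rw [Sylow.coe_subgroup_smul, Subgroup.mem_pointwise_smul_iff_inv_smul_mem] at h3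
          have h4 : (MulAut.conj g)⁻¹ • a = g⁻¹ * a * g := by
            rw [MulAut.smul_def, MulAut.conj_inv_apply]
          rw [h4] at h3
          exact h3
        change ((a * g : G) : G ⧸ S) = (g : G ⧸ S)
        rw [QuotientGroup.eq]
        have h4 : (a * g)⁻¹ * g = (g⁻¹ * a * g)⁻¹ := by group
        rw [h4]
        exact S.inv_mem h2
      exact (hval _ hx).1 (h _ hx)
    · intro h x hx
      exact (hval x hx).2 h
  · intro A hA E
    rw [fixAcyclic_indCx S Y hY]
    intro x hx
    exfalso
    apply hA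
    have h1 : IsPGroup p (A.map (MulAut.conj x.out⁻¹).toMonoidHom) := hS.to_le (hfix A x hx)
    exact h1.of_equiv (A.equivMapOfInjective _ (MulAut.conj x.out⁻¹).injective).symm

omit halive hN hR in
theorem implication_mpr (G : FiniteGrp.{0}) (A C : Subgroup G) (hC : IsPGroup p C)
    (m n : ℕ) (h : ∃ g : G, cong g A ≤ C ∧ n + ell ((cong g A).subgroupOf C) ≤ m)
    (X : GCx G) (hX : X.IsFin) (hA : FixAcyclic (K m) X A) : FixAcyclic (K n) X C := by
  obtain ⟨g, hg, hm⟩ := h
  exact smith_rel hab hX hC hg hm ((fixAcyclic_cong _ X g A).2 hA)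

/-- All implications between the acyclicity of fixed points. -/
theorem implication_iff (G : FiniteGrp.{0}) (A C : Subgroup G) (hC : IsPGroup p C) (m n : ℕ) :
    (∀ X : GCx G, X.IsFin → FixAcyclic (K m) X A → FixAcyclic (K n) X C) ↔
      ∃ g : G, cong g A ≤ C ∧ n + ell ((cong g A).subgroupOf C) ≤ m := by
  refine ⟨?_, fun h X hX => implication_mpr hab G A C hC m n h X hX⟩
  intro h
  by_contra hcon
  push Not at hcon
  let θ : Subgroup G → ℕ∞ := fun D =>
    ⨅ (g : G) (_ : cong g D ≤ C), ((n + ell ((cong g D).subgroupOf C) : ℕ) : ℕ∞)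
  have hθ : Comp θ := by
    have hconj : ∀ D g, θ (cong g D) ≤ θ D := by
      intro D g
      refine le_iInf₂ fun k hk => ?_
      have h1 : cong (k * g⁻¹) (cong g D) = cong k D := by
        rw [cong_cong, inv_mul_cancel_right]
      refine (iInf₂_le (k * g⁻¹) (by rw [h1]; exact hk)).trans ?_
      rw [h1]
    refine ⟨fun D g => le_antisymm (hconj D g) ?_, ?_⟩
    · have h1 := hconj (cong g D) g⁻¹
      rwa [cong_cong, inv_mul_cancel, cong_one] at h1
    · intro D D' hDD'
      by_cases hex : ∃ k : G, cong k D' ≤ C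
      · obtain ⟨k₀, hk₀⟩ := hex
        have h2 : θ D ≤ ⨅ (k : G) (_ : cong k D' ≤ C),
            (((n + ell ((cong k D').subgroupOf C) : ℕ) : ℕ∞) + ell (D.subgroupOf D')) := by
          refine le_iInf₂ fun k hk => ?_
          refine (iInf₂_le k ((cong_mono hDD' k).trans hk)).trans ?_
          have h3 := ell_rel_trans hC (cong_mono hDD' k) hk
          have hD' : IsPGroup p D' := by
            have h5 : IsPGroup p (D'.map (MulAut.conj k).toMonoidHom) := hC.to_le hk
            exact h5.of_equiv (D'.equivMapOfInjective _ (MulAut.conj k).injective).symm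
          have h4 := ell_rel_conj hD' hDD' k
          have h5 : n + ell ((cong k D).subgroupOf C) ≤
              n + ell ((cong k D').subgroupOf C) + ell (D.subgroupOf D') := by omega
          exact_mod_cast h5
        refine h2.trans ?_
        have h6 : ∃ (k : G) (_ : cong k D' ≤ C),
            θ D' = ((n + ell ((cong k D').subgroupOf C) : ℕ) : ℕ∞) := by
          let F := {k : G // cong k D' ≤ C}
          have : Nonempty F := ⟨⟨k₀, hk₀⟩⟩
          have h7 : θ D' = ⨅ k : F, ((n + ell ((cong k.1 D').subgroupOf C) : ℕ) : ℕ∞) :=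
            (iInf_subtype (p := fun k => cong k D' ≤ C)
              (f := fun k => ((n + ell ((cong k.1 D').subgroupOf C) : ℕ) : ℕ∞))).symm
          obtain ⟨k, hk⟩ := exists_eq_ciInf_of_finite
            (f := fun k : F => ((n + ell ((cong k.1 D').subgroupOf C) : ℕ) : ℕ∞))
          exact ⟨k.1, k.2, h7.trans hk.symm⟩
        obtain ⟨k, hk, hk'⟩ := h6
        rw [hk']
        exact iInf₂_le (f := fun (k : G) (_ : cong k D' ≤ C) =>
          (((n + ell ((cong k D').subgroupOf C) : ℕ) : ℕ∞) + ell (D.subgroupOf D'))) k hk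
      · have h2 : θ D' = ⊤ := by
          refine iInf₂_eq_top.2 fun k hk => ?_
          exact absurd ⟨k, hk⟩ hex
        rw [h2, top_add]
        exact le_top
  obtain ⟨X, hX, hXθ, hXn⟩ := exists_of_compatible hab halive hN hR G (θ := θ)
    (fun D _ => ⟨fun g => hθ.1 D g, fun D' h => hθ.2 D' D h⟩)
  have hA : FixAcyclic (K m) X A := by
    by_cases hpA : IsPGroup p A
    · refine (hXθ A hpA m).2 ?_
      have h2 : ((m + 1 : ℕ) : ℕ∞) ≤ θ A := by
        refine le_iInf₂ fun g hg => ?_
        have h3 : m + 1 ≤ n + ell ((cong g A).subgroupOf C) := hcon g hg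
        exact_mod_cast h3
      exact lt_of_lt_of_le (by exact_mod_cast Nat.lt_succ_self m) h2
    · exact hXn A hpA _
  have h2 := (hXθ C hC n).1 (h X hX hA)
  have h3 : θ C ≤ n := by
    refine (iInf₂_le (1 : G) (by rw [cong_one])).trans ?_
    rw [cong_one, ell_rel_self]
    simp
  exact absurd (lt_of_lt_of_le h2 h3) (lt_irrefl _)

end

end Vale.Agent.P241.H140
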