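import Vale.Agent.P241.Bdl.B2

/-! Wedge sums of based simplicial sets and of `G`-complexes, and the induced complexes
`(G / B)₊ ∧ Z`. -/

set_option autoImplicit false
set_option linter.unusedVariables false

namespace Vale.Agent.P241.H140

open Vale.Agent.P241.F

theorem of_retract (E : Homology) {X Y : BSS} (f : Map X Y) (g : Map Y X)
    (h : ∀ n x, g.f n (f.f n x) = x) (hY : E.Acyclic Y) : E.Acyclic X := by
  intro j x
  have h1 : E.map j (idMap X) x = E.map j g (E.map j f x) :=
    E.map_comp j f g (idMap X) (fun n x => (h n x).symm) x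
  rw [E.map_id j (idMap X) (fun _ _ => rfl)] at h1
  rw [h1, hY j (E.map j f x), E.map_zero]

theorem acyclic_iff_of_cofiber (E : Homology) {A X Q : BSS} (i : Map A X) (q : Map X Q)
    (h : IsCofiber i q) (hA : E.Acyclic A) : E.Acyclic X ↔ E.Acyclic Q := by
  obtain ⟨δ, hδ⟩ := E.exact i q h
  constructor
  · intro hX j y
    obtain ⟨j, rfl⟩ : ∃ m, j = m + 1 := ⟨j - 1, by ring⟩
    obtain ⟨x, rfl⟩ := ((hδ j).2.1 y).1 (hA j _)
    rw [hX (j + 1) x, E.map_zero]
  · intro hQ j x
    obtain ⟨a, rfl⟩ := ((hδ j).1 x).1 (hQ j _)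
    rw [hA j a, E.map_zero]

theorem acyclic_pt (E : Homology) : E.Acyclic ptBSS := by
  intro j x
  rw [E.eq_zero_iff]
  exact ⟨x, E.map_id j (ptMap ptBSS) (fun _ _ => rfl) x⟩

theorem acyclic_of_trivial (E : Homology) (X : BSS) (h : ∀ n (x : X.S n), x = X.pt n) :
    E.Acyclic X :=
  of_retract E (X := X) (Y := ptBSS) ⟨fun _ _ => (), fun _ => rfl, fun _ _ => rfl⟩ (ptMap X)
    (fun n x => (h n x).symm) (acyclic_pt E)

section Wedge

variable {ι : Type} (X : ι → BSS)

/-- The part of the wedge sum of the `X i` with coordinates in `s`. -/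
def wed (s : Set ι) : BSS where
  S n := {z : ∀ i, (X i).S n // (∀ i j, i ≠ j → z i = (X i).pt n ∨ z j = (X j).pt n) ∧
    ∀ i, i ∉ s → z i = (X i).pt n}
  pt n := ⟨fun i => (X i).pt n, fun _ _ _ => Or.inl rfl, fun _ _ => rfl⟩
  op a z := ⟨fun i => (X i).op a (z.1 i), fun i j h => by
    rcases z.2.1 i j h with h | h
    · left; change (X i).op a (z.1 i) = _; rw [h, (X i).op_pt]
    · right; change (X j).op a (z.1 j) = _; rw [h, (X j).op_pt], fun i hi => by
      change (X i).op a (z.1 i) = _
      rw [z.2.2 i hi, (X i).op_pt]⟩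
  op_pt a := Subtype.ext (funext fun i => (X i).op_pt a)
  op_id z := Subtype.ext (funext fun i => (X i).op_id _)
  op_comp a b z := Subtype.ext (funext fun i => (X i).op_comp a b _)

variable {X}

/-- The inclusion of a smaller wedge. -/
def wedIncl {s t : Set ι} (h : s ⊆ t) : Map (wed X s) (wed X t) where
  f n z := ⟨z.1, z.2.1, fun i hi => z.2.2 i (fun his => hi (h his))⟩
  f_pt n := rfl
  f_op a z := rfl

/-- The projection to a summand. -/
def wedProj (s : Set ι) (i : ι) : Map (wed X s) (X i) where
  f n z := z.1 i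
  f_pt n := rfl
  f_op a z := rfl

open Classical in
/-- The inclusion of a summand. -/
noncomputable def wedIn (s : Set ι) (i : ι) (hi : i ∈ s) : Map (X i) (wed X s) where
  f n x := ⟨Function.update (fun i => (X i).pt n) i x, by
    intro j k hjk
    by_cases hj : j = i
    · right
      subst hj
      exact Function.update_of_ne (Ne.symm hjk) _ _
    · left
      exact Function.update_of_ne hj _ _, by
    intro j hj
    have hne : j ≠ i := by
      rintro rfl
      exact hj hi
    exact Function.update_of_ne hne _ _⟩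
  f_pt n := Subtype.ext (Function.update_eq_self i (fun i => (X i).pt n))
  f_op {m n} a x := Subtype.ext (by
    funext j
    change Function.update (fun i => (X i).pt m) i ((X i).op a x) j =
      (X j).op a (Function.update (fun i => (X i).pt n) i x j)
    by_cases hj : j = i
    · subst hj
      rw [Function.update_self, Function.update_self]
    · rw [Function.update_of_ne hj, Function.update_of_ne hj, (X j).op_pt])

theorem wedIn_self (s : Set ι) (i : ι) (hi : i ∈ s) {n : ℕ} (x : (X i).S n) :
    ((wedIn (X := X) s i hi).f n x).1 i = x := by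
  classical
  change Function.update (fun i => (X i).pt n) i x i = x
  exact Function.update_self _ _ _

theorem wedIn_ne (s : Set ι) (i : ι) (hi : i ∈ s) {n : ℕ} (x : (X i).S n) {j : ι} (h : j ≠ i) :
    ((wedIn (X := X) s i hi).f n x).1 j = (X j).pt n := by
  classical
  change Function.update (fun i => (X i).pt n) i x j = _
  exact Function.update_of_ne h _ _

/-- A simplex with nontrivial coordinate `i` comes from the summand `X i`. -/
theorem eq_wedIn (s : Set ι) (i : ι) (hi : i ∈ s) {n : ℕ} (z : (wed X s).S n)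
    (hz : z.1 i ≠ (X i).pt n) : z = (wedIn (X := X) s i hi).f n (z.1 i) := by
  apply Subtype.ext
  funext j
  by_cases hj : j = i
  · subst hj
    rw [wedIn_self]
  · rw [wedIn_ne _ _ _ _ hj]
    exact (z.2.1 j i hj).resolve_right hz

theorem acyclic_summand (E : Homology) (s : Set ι) (h : E.Acyclic (wed X s)) (i : ι)
    (hi : i ∈ s) : E.Acyclic (X i) :=
  of_retract E (wedIn s i hi) (wedProj s i) (fun n x => wedIn_self s i hi x) h

theorem acyclic_wed (E : Homology) (s : Finset ι) (h : ∀ i ∈ s, E.Acyclic (X i)) :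
    E.Acyclic (wed X (s : Set ι)) := by
  classical
  induction s using Finset.induction_on with
  | empty =>
    refine acyclic_of_trivial E _ fun n z => Subtype.ext (funext fun i => z.2.2 i (by simp))
  | insert a s ha ih =>
    have hs : ((s : Set ι)) ⊆ ((insert a s : Finset ι) : Set ι) := by
      rw [Finset.coe_insert]
      exact Set.subset_insert _ _
    have hat : a ∈ ((insert a s : Finset ι) : Set ι) := by simp
    refine (acyclic_iff_of_cofiber E (wedIncl hs) (wedProj _ a) ?_
      (ih fun i hi => h i (Finset.mem_insert_of_mem hi))).2 (h a (Finset.mem_insert_self a s))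
    intro n
    refine ⟨?_, ?_, ?_⟩
    · intro x y hxy
      refine Subtype.ext ?_
      exact congrArg (fun w : (wed X ((insert a s : Finset ι) : Set ι)).S n => w.1) hxy
    · intro y
      exact ⟨(wedIn _ a hat).f n y, wedIn_self _ a hat y⟩
    · intro x y
      have himg : ∀ x : (wed X ((insert a s : Finset ι) : Set ι)).S n,
          (∃ w, (wedIncl hs).f n w = x) ↔ x.1 a = (X a).pt n := by
        intro x
        constructor
        · rintro ⟨w, rfl⟩
          exact w.2.2 a (by simpa using ha)
        · intro hx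
          refine ⟨⟨x.1, x.2.1, fun i hi => ?_⟩, rfl⟩
          by_cases hia : i = a
          · subst hia
            exact hx
          · refine x.2.2 i ?_
            rw [Finset.coe_insert]
            rintro (h | h)
            · exact hia h
            · exact hi h
      rw [himg, himg]
      change x.1 a = y.1 a ↔ _
      constructor
      · intro hxy
        by_cases hx : x.1 a = (X a).pt n
        · exact Or.inr ⟨hx, hxy ▸ hx⟩
        · left
          rw [eq_wedIn _ a hat x hx, eq_wedIn _ a hat y (by rwa [← hxy]), hxy]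
      · rintro (h | ⟨h, h'⟩)
        · rw [h]
        · rw [h, h']

theorem acyclic_wed_iff [Finite ι] (E : Homology) :
    E.Acyclic (wed X Set.univ) ↔ ∀ i, E.Acyclic (X i) := by
  constructor
  · intro h i
    exact acyclic_summand E _ h i (Set.mem_univ i)
  · intro h
    have := Fintype.ofFinite ι
    have h1 := acyclic_wed E (X := X) Finset.univ (fun i _ => h i)
    rwa [Finset.coe_univ] at h1

theorem isFin_wed [Finite ι] (h : ∀ i, (X i).IsFin) : (wed X Set.univ).IsFin := by
  classical
  refine ⟨fun n => ?_, ?_⟩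
  · have := fun i => (h i).1 n
    exact Finite.of_injective (fun z : (wed X Set.univ).S n => z.1) Subtype.val_injective
  · choose d hd using fun i => (h i).2
    have := Fintype.ofFinite ι
    refine ⟨∑ i, d i, fun n z => ?_⟩
    by_cases hz : ∃ i, z.1 i ≠ (X i).pt n
    · obtain ⟨i, hi⟩ := hz
      obtain ⟨k, hk, a, y, hy⟩ := hd i n (z.1 i)
      refine ⟨k, hk.trans (Finset.single_le_sum (f := d) (fun _ _ => Nat.zero_le _)
        (Finset.mem_univ i)), a, (wedIn _ i (Set.mem_univ i)).f k y, ?_⟩
      rw [← (wedIn _ i (Set.mem_univ i)).f_op, hy]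
      exact (eq_wedIn _ i (Set.mem_univ i) z hi).symm
    · push Not at hz
      refine ⟨0, Nat.zero_le _, OrderHom.const _ 0, (wed X Set.univ).pt 0, ?_⟩
      rw [(wed X Set.univ).op_pt]
      exact Subtype.ext (funext fun i => (hz i).symm)

end Wedge

section WedgeG

variable {G : FiniteGrp.{0}} {ι : Type} (X : ι → GCx G)

/-- The wedge sum of `G`-complexes. -/
def wedG : GCx G where
  toBSS := wed (fun i => (X i).toBSS) Set.univ
  act g := ⟨fun n z => ⟨fun i => ((X i).act g).f n (z.1 i), fun i j h =>
      (z.2.1 i j h).imp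
        (fun h => (congrArg (fun w => ((X i).act g).f n w) h).trans (((X i).act g).f_pt n))
        (fun h => (congrArg (fun w => ((X j).act g).f n w) h).trans (((X j).act g).f_pt n)),
      fun i hi => absurd (Set.mem_univ i) hi⟩,
    fun n => Subtype.ext (funext fun i => ((X i).act g).f_pt n),
    fun {m n} a z => Subtype.ext (funext fun i => ((X i).act g).f_op a (z.1 i))⟩
  act_one n z := Subtype.ext (funext fun i => (X i).act_one n (z.1 i))
  act_mul g h n z := Subtype.ext (funext fun i => (X i).act_mul g h n (z.1 i))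

theorem isFin_wedG [Finite ι] (h : ∀ i, (X i).IsFin) : (wedG X).IsFin :=
  isFin_wed (X := fun i => (X i).toBSS) h

theorem fixAcyclic_wedG [Finite ι] (h : ∀ i, (X i).IsFin) (E : Homology) (A : Subgroup G) :
    FixAcyclic E (wedG X) A ↔ ∀ i, FixAcyclic E (X i) A := by
  choose Y m hY hm using fun i => exists_isFixF (X i) (h i) A
  let μ : Map (wed Y Set.univ) (wedG X).toBSS :=
    ⟨fun n z => ⟨fun i => (m i).f n (z.1 i), fun i j h =>
      (z.2.1 i j h).imp
        (fun h => (congrArg (fun w => (m i).f n w) h).trans ((m i).f_pt n))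
        (fun h => (congrArg (fun w => (m j).f n w) h).trans ((m j).f_pt n)),
      fun i hi => absurd (Set.mem_univ i) hi⟩,
    fun n => Subtype.ext (funext fun i => (m i).f_pt n),
    fun {k n} a z => Subtype.ext (funext fun i => (m i).f_op a (z.1 i))⟩
  have hμ : IsFixF (wedG X) A μ := by
    intro n
    refine ⟨?_, ?_⟩
    · intro x y hxy
      refine Subtype.ext (funext fun i => (hm i n).1 ?_)
      exact congrFun (congrArg Subtype.val hxy) i
    · intro x
      constructor
      · intro hx
        have h1 : ∀ i, ∃ y, (m i).f n y = x.1 i := by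
          intro i
          refine ((hm i n).2 (x.1 i)).1 fun g hg => ?_
          exact congrFun (congrArg Subtype.val (hx g hg)) i
        choose y hy using h1
        refine ⟨⟨y, fun i j hij => ?_, fun i hi => absurd (Set.mem_univ i) hi⟩,
          Subtype.ext (funext hy)⟩
        rcases x.2.1 i j hij with h2 | h2
        · left
          apply (hm i n).1
          rw [hy, h2]
          exact ((m i).f_pt n).symm
        · right
          apply (hm j n).1
          rw [hy, h2]
          exact ((m j).f_pt n).symm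
      · rintro ⟨y, rfl⟩ g hg
        refine Subtype.ext (funext fun i => ?_)
        exact ((hm i n).2 _).2 ⟨y.1 i, rfl⟩ g hg
  rw [fixAcyclic_iffF E hμ, acyclic_wed_iff]
  exact forall_congr' fun i => (fixAcyclic_iffF E (hm i)).symm

end WedgeG

section Orb

variable {G : FiniteGrp.{0}} (B : Subgroup G) (Z : BSS)

/-- The `G`-complex `(G / B)₊ ∧ Z`. -/
def orbCx : GCx G where
  toBSS := wed (fun _ : G ⧸ B => Z) Set.univ
  act g := ⟨fun n z => ⟨fun x => z.1 (g⁻¹ • x), fun x y h =>
      z.2.1 (g⁻¹ • x) (g⁻¹ • y) (fun h' => h (smul_left_cancel _ h')),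
      fun x hx => absurd (Set.mem_univ x) hx⟩,
    fun n => rfl, fun {m n} a z => rfl⟩
  act_one n z := Subtype.ext (funext fun x => by
    change z.1 ((1 : G)⁻¹ • x) = z.1 x
    rw [inv_one, one_smul])
  act_mul g h n z := Subtype.ext (funext fun x => by
    change z.1 ((g * h)⁻¹ • x) = z.1 (h⁻¹ • g⁻¹ • x)
    rw [mul_inv_rev, mul_smul])

theorem orbCx_isFin (hZ : Z.IsFin) : (orbCx B Z).IsFin :=
  isFin_wed (X := fun _ : G ⧸ B => Z) fun _ => hZ

/-- Fixed simplices of `(G / B)₊ ∧ Z` are supported on fixed points of `G / B`. -/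
theorem orb_fixed {n : ℕ} (z : (orbCx B Z).S n) (g : G)
    (h : ((orbCx B Z).act g).f n z = z) (x : G ⧸ B) (hx : z.1 x ≠ Z.pt n) : g • x = x := by
  by_contra hne
  have h1 : z.1 (g⁻¹ • (g • x)) = z.1 (g • x) := congrFun (congrArg Subtype.val h) (g • x)
  rw [inv_smul_smul] at h1
  rcases z.2.1 (g • x) x hne with h2 | h2
  · exact hx (h1.trans h2)
  · exact hx h2

theorem fixAcyclic_orbCx (E : Homology) (A : Subgroup G) :
    FixAcyclic E (orbCx B Z) A ↔ ∀ x : G ⧸ B, (∀ a ∈ A, a • x = x) → E.Acyclic Z := by
  classical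
  let F := {x : G ⧸ B // ∀ a ∈ A, a • x = x}
  let μ : Map (wed (fun _ : F => Z) Set.univ) (orbCx B Z).toBSS :=
    ⟨fun n z => ⟨fun x => if h : ∀ a ∈ A, a • x = x then z.1 ⟨x, h⟩ else Z.pt n,
      fun x y hxy => by
        by_cases h1 : ∀ a ∈ A, a • x = x
        · by_cases h2 : ∀ a ∈ A, a • y = y
          · simp only [dif_pos h1, dif_pos h2]
            exact z.2.1 ⟨x, h1⟩ ⟨y, h2⟩ (fun h => hxy (congrArg Subtype.val h))
          · right
            simp only [dif_neg h2]
        · left
          simp only [dif_neg h1], fun x hx => absurd (Set.mem_univ x) hx⟩,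
    fun n => Subtype.ext (funext fun x => by
      by_cases h1 : ∀ a ∈ A, a • x = x
      · exact dif_pos h1
      · exact dif_neg h1),
    fun {m n} a z => Subtype.ext (funext fun x => by
      change (if h : ∀ a ∈ A, a • x = x then Z.op a (z.1 ⟨x, h⟩) else Z.pt m) =
        Z.op a (if h : ∀ a ∈ A, a • x = x then z.1 ⟨x, h⟩ else Z.pt n)
      by_cases h1 : ∀ a ∈ A, a • x = x
      · rw [dif_pos h1, dif_pos h1]
      · rw [dif_neg h1, dif_neg h1, Z.op_pt])⟩
  have hval : ∀ {n : ℕ} (z : (wed (fun _ : F => Z) Set.univ).S n) (x : G ⧸ B)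
      (h : ∀ a ∈ A, a • x = x), (μ.f n z).1 x = z.1 ⟨x, h⟩ := fun z x h => dif_pos h
  have hval' : ∀ {n : ℕ} (z : (wed (fun _ : F => Z) Set.univ).S n) (x : G ⧸ B)
      (_ : ¬ ∀ a ∈ A, a • x = x), (μ.f n z).1 x = Z.pt n := fun z x h => dif_neg h
  have hμ : IsFixF (orbCx B Z) A μ := by
    intro n
    refine ⟨?_, ?_⟩
    · intro x y hxy
      refine Subtype.ext (funext fun i => ?_)
      have h1 := congrFun (congrArg Subtype.val hxy) i.1
      rwa [hval x i.1 i.2, hval y i.1 i.2] at h1
    · intro z
      constructor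
      · intro hz
        refine ⟨⟨fun i => z.1 i.1, fun i j hij => z.2.1 i.1 j.1 (fun h => hij (Subtype.ext h)),
          fun i hi => absurd (Set.mem_univ i) hi⟩, Subtype.ext (funext fun x => ?_)⟩
        by_cases h1 : ∀ a ∈ A, a • x = x
        · exact hval _ x h1
        · refine (hval' _ x h1).trans ?_
          by_contra hne
          apply h1
          intro a ha
          exact orb_fixed B Z z a (hz a ha) x (fun h => hne h.symm)
      · rintro ⟨y, rfl⟩ g hg
        refine Subtype.ext (funext fun x => ?_)
        change (μ.f n y).1 (g⁻¹ • x) = (μ.f n y).1 x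
        by_cases h1 : ∀ a ∈ A, a • x = x
        · have h2 : g⁻¹ • x = x := by
            rw [inv_smul_eq_iff]
            exact (h1 g hg).symm
          rw [h2]
        · have h2 : ¬ ∀ a ∈ A, a • (g⁻¹ • x) = g⁻¹ • x := by
            intro h3
            apply h1
            intro a ha
            have h4 := h3 (g⁻¹ * a * g) (A.mul_mem (A.mul_mem (A.inv_mem hg) ha) hg)
            rw [← mul_smul, mul_assoc, mul_assoc, mul_inv_cancel, mul_one, mul_smul] at h4
            exact smul_left_cancel _ h4
          rw [hval' y _ h1, hval' y _ h2]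
  rw [fixAcyclic_iffF E hμ, acyclic_wed_iff]
  exact ⟨fun h x hx => h ⟨x, hx⟩, fun h x => h x.1 x.2⟩

end Orb

end Vale.Agent.P241.H140
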