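import Vale.Agent.P241.H140.Defs
import Vale.Agent.P241.H140.Wedge
import Vale.Agent.P241.H140.Build

/-! Type functions of finite `G`-complexes. -/

set_option autoImplicit false
set_option linter.unusedVariables false

namespace Vale.Agent.P241.H140

open Vale.Agent.P241.F

/-! ### Relative chain lengths -/

section Ell

variable {p : ℕ} [hp : Fact p.Prime] {G : Type} [Group G] [Finite G]

theorem isChain_rel {A B : Subgroup G} (hB : IsPGroup p B) (h : A ≤ B) :
    IsChain A B (ell (A.subgroupOf B)) := by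
  have h1 := (isChain_ell hB (A.subgroupOf B)).map B.subtype
  rw [← MonoidHom.range_eq_map, Subgroup.range_subtype, Subgroup.subgroupOf_map_subtype,
    inf_eq_left.2 h] at h1
  exact h1

omit hp [Finite G] in
theorem ell_rel_le {A B : Subgroup G} {s : ℕ} (h : IsChain A B s) :
    ell (A.subgroupOf B) ≤ s := by
  have h1 := h.comap B.subtype
  have h2 : B.comap B.subtype = ⊤ := Subgroup.subgroupOf_self B
  rw [h2] at h1
  exact ell_le h1

theorem ell_rel_trans {A B C : Subgroup G} (hC : IsPGroup p C) (h : A ≤ B) (h' : B ≤ C) :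
    ell (A.subgroupOf C) ≤ ell (A.subgroupOf B) + ell (B.subgroupOf C) :=
  ell_rel_le ((isChain_rel (hC.to_le h') h).trans (isChain_rel hC h'))

omit hp [Finite G] in
theorem ell_rel_self (B : Subgroup G) : ell (B.subgroupOf B) = 0 :=
  Nat.le_zero.1 (ell_rel_le ⟨fun _ => B, rfl, rfl, fun i hi => absurd hi (Nat.not_lt_zero i)⟩)

theorem ell_rel_map {Q : Type} [Group Q] {A B : Subgroup G} (hB : IsPGroup p B) (h : A ≤ B)
    (f : G →* Q) : ell ((A.map f).subgroupOf (B.map f)) ≤ ell (A.subgroupOf B) :=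
  ell_rel_le ((isChain_rel hB h).map f)

theorem ell_rel_conj {A B : Subgroup G} (hB : IsPGroup p B) (h : A ≤ B) (g : G) :
    ell ((cong g A).subgroupOf (cong g B)) ≤ ell (A.subgroupOf B) :=
  ell_rel_map hB h (MulAut.conj g).toMonoidHom

theorem ell_rel_quotient {A B : Subgroup G} (hB : IsPGroup p B) [(A.subgroupOf B).Normal] :
    ell (A.subgroupOf B) ≤ ell (⊥ : Subgroup (B ⧸ A.subgroupOf B)) := by
  have h := (isChain_ell (hB.to_quotient (A.subgroupOf B)) ⊥).comap
    (QuotientGroup.mk' (A.subgroupOf B))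
  rw [Subgroup.comap_top, MonoidHom.comap_bot, QuotientGroup.ker_mk'] at h
  exact ell_le h

end Ell

/-- Compatible functions on all subgroups. -/
def Comp {G : Type} [Group G] (θ : Subgroup G → ℕ∞) : Prop :=
  (∀ A g, θ (cong g A) = θ A) ∧ ∀ A B, A ≤ B → θ A ≤ θ B + ell (A.subgroupOf B)

/-! ### Restriction and conjugation -/

section Res

variable {G : FiniteGrp.{0}}

/-- Restriction to a subgroup. -/
def resCx (X : GCx G) (B : Subgroup G) : GCx (.of B) where
  toBSS := X.toBSS
  act b := X.act b.1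
  act_one n x := X.act_one n x
  act_mul g h n x := X.act_mul g.1 h.1 n x

theorem fixAcyclic_resCx (E : Homology) (X : GCx G) {A B : Subgroup G} (h : A ≤ B) :
    FixAcyclic E (resCx X B) (A.subgroupOf B) ↔ FixAcyclic E X A := by
  have key : ∀ n (x : X.S n), (∀ g ∈ A.subgroupOf B, ((resCx X B).act g).f n x = x) ↔
      ∀ g ∈ A, (X.act g).f n x = x := by
    intro n x
    constructor
    · intro hx g hg
      exact hx ⟨g, h hg⟩ (Subgroup.mem_subgroupOf.2 hg)
    · intro hx g hg
      exact hx g.1 (Subgroup.mem_subgroupOf.1 hg)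
  constructor
  · intro H Y i hi
    exact H Y i fun n => ⟨(hi n).1, fun x => (key n x).trans ((hi n).2 x)⟩
  · intro H Y i hi
    exact H Y i fun n => ⟨(hi n).1, fun x => (key n x).symm.trans ((hi n).2 x)⟩

theorem fixAcyclic_resCx_top (E : Homology) (X : GCx G) (B : Subgroup G) :
    FixAcyclic E (resCx X B) ⊤ ↔ FixAcyclic E X B := by
  have h := fixAcyclic_resCx E X (le_refl B)
  have h2 : B.subgroupOf B = ⊤ := Subgroup.subgroupOf_self B
  rw [h2] at h
  exact h

theorem fixAcyclic_cong (E : Homology) (X : GCx G) (g : G) (A : Subgroup G) :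
    FixAcyclic E X (cong g A) ↔ FixAcyclic E X A := by
  rw [fixAcyclic_gToB, fixAcyclic_gToB]
  exact (Based.acyclic_iff (Based.conjFixIso (gToB X) g A)).symm

theorem cong_cong (g h : G) (A : Subgroup G) : cong g (cong h A) = cong (g * h) A :=
  Based.conj_conj g h A

theorem cong_one (A : Subgroup G) : cong 1 A = A := Based.conj_one A

theorem cong_mono {A B : Subgroup G} (h : A ≤ B) (g : G) : cong g A ≤ cong g B :=
  Based.conj_mono h g

end Res

section

variable {p : ℕ} [hp : Fact p.Prime] {K : ℕ → Homology}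
  (hab : ∀ A : FiniteGrp.{0}, IsPGroup p A → IsMulCommutative A → ∀ n r,
    Smith (K (n + r)) (K n) (⊥ : Subgroup A) ↔ Group.rank A ≤ r)
include hab

omit hp in
theorem fixAcyclic_mono {G : FiniteGrp.{0}} {X : GCx G} (hX : X.IsFin) {A : Subgroup G}
    {i j : ℕ} (hij : i ≤ j) (h : FixAcyclic (K j) X A) : FixAcyclic (K i) X A := by
  obtain ⟨d, rfl⟩ := Nat.exists_eq_add_of_le hij
  obtain ⟨Y, k, hY, hk⟩ := exists_isFixF X hX A
  rw [fixAcyclic_iffF _ hk] at h ⊢
  exact acyclic_mono K hab i d Y hY h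

/-- The upper bound for a pair of subgroups. -/
theorem smith_rel {G : FiniteGrp.{0}} {X : GCx G} (hX : X.IsFin)
    {A B : Subgroup G} (hB : IsPGroup p B) (hAB : A ≤ B) {n m : ℕ} (hm : n + ell (A.subgroupOf B) ≤ m)
    (h : FixAcyclic (K m) X A) : FixAcyclic (K n) X B := by
  rw [← fixAcyclic_resCx_top]
  refine smith_of_ell_le K hab (.of B) hB (A.subgroupOf B) n
    (ell (A.subgroupOf B)) le_rfl (resCx X B) hX ?_
  exact (fixAcyclic_resCx _ X hAB).2 (fixAcyclic_mono hab hX hm h)

omit hp in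
/-- Every finite `G`-complex has a type function. -/
theorem exists_hasType {G : FiniteGrp.{0}} {X : GCx G} (hX : X.IsFin) :
    ∃ θ : Subgroup G → ℕ∞, ∀ A (j : ℕ), FixAcyclic (K j) X A ↔ (j : ℕ∞) < θ A := by
  refine ⟨fun A => ⨅ (j : ℕ) (_ : ¬ FixAcyclic (K j) X A), (j : ℕ∞), fun A j => ?_⟩
  constructor
  · intro h
    have h1 : ((j + 1 : ℕ) : ℕ∞) ≤ ⨅ (j : ℕ) (_ : ¬ FixAcyclic (K j) X A), (j : ℕ∞) := by
      refine le_iInf₂ fun i hi => ?_
      by_contra hlt
      have h2 : i < j + 1 := by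
        rw [not_le] at hlt
        exact_mod_cast hlt
      exact hi (fixAcyclic_mono hab hX (Nat.lt_succ_iff.1 h2) h)
    refine lt_of_lt_of_le ?_ h1
    exact_mod_cast Nat.lt_succ_self j
  · intro h
    by_contra hj
    exact absurd (iInf₂_le (f := fun (i : ℕ) (_ : ¬ FixAcyclic (K i) X A) => (i : ℕ∞)) j hj)
      (not_le_of_gt h)

/-- Type functions are compatible. -/
theorem compatible_of_hasType {G : FiniteGrp.{0}} {X : GCx G}
    (hX : X.IsFin) {θ : Subgroup G → ℕ∞} (h : HasType p K X θ) : Compatible p θ := by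
  have hc : ∀ (B : Subgroup G) (g : G), IsPGroup p B → IsPGroup p (cong g B) :=
    fun B g hB => hB.map _
  have hle : ∀ (B B' : Subgroup G), IsPGroup p B → IsPGroup p B' →
      (∀ k, FixAcyclic (K k) X B → FixAcyclic (K k) X B') → θ B ≤ θ B' := by
    intro B B' hB hB' h0
    refine ENat.forall_natCast_le_iff_le.1 fun k hk => ?_
    rcases k with _ | k
    · simp
    · have h1 : (k : ℕ∞) < θ B := lt_of_lt_of_le (by exact_mod_cast Nat.lt_succ_self k) hk
      exact Order.add_one_le_of_lt ((h B' hB' k).1 (h0 k ((h B hB k).2 h1)))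
  intro B hB
  refine ⟨fun g => le_antisymm ?_ ?_, ?_⟩
  · exact hle _ _ (hc B g hB) hB fun k => (fixAcyclic_cong _ X g B).1
  · exact hle _ _ hB (hc B g hB) fun k => (fixAcyclic_cong _ X g B).2
  · intro A hAB
    by_contra hlt
    rw [not_le] at hlt
    have hB' : θ B ≠ ⊤ := by
      intro hB'
      rw [hB', top_add] at hlt
      exact absurd hlt (by simp)
    obtain ⟨n, hn⟩ := ENat.ne_top_iff_exists.1 hB'
    rw [← hn, ← Nat.cast_add] at hlt
    have h1 := (h A (hB.to_le hAB) _).2 hlt
    have h2 := (h B hB n).1 (smith_rel hab hX hB hAB le_rfl h1)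
    rw [← hn] at h2
    exact lt_irrefl _ h2

end

end Vale.Agent.P241.H140
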