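import Vale.Agent.P241.H140.Main

/-! Realization of compatible functions. -/

set_option autoImplicit false
set_option linter.unusedVariables false

namespace Vale.Agent.P241.H140

open Vale.Agent.P241.F

theorem card_cong {G : Type} [Group G] (g : G) (A : Subgroup G) :
    Nat.card (cong g A) = Nat.card A :=
  Nat.card_congr (A.equivMapOfInjective _ (MulAut.conj g).injective).toEquiv.symm

/-- Subgroups which are not properly subconjugate to `B`. -/
def big {G : Type} [Group G] (B : Subgroup G) : Set (Subgroup G) :=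
  {A | Nat.card B ≤ Nat.card A ∨ ∀ g, ¬ cong g A ≤ B}

section

variable {G : FiniteGrp.{0}} (B : Subgroup G)

theorem big_up {A : Subgroup G} (hA : A ∈ big B) {A' : Subgroup G} (h : A ≤ A') :
    A' ∈ big B := by
  rcases hA with hA | hA
  · left
    exact hA.trans (Subgroup.card_le_of_le h)
  · right
    intro g hg
    exact hA g ((cong_mono h g).trans hg)

theorem big_cong {A : Subgroup G} (hA : A ∈ big B) (g : G) : cong g A ∈ big B := by
  rcases hA with hA | hA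
  · left
    rwa [card_cong]
  · right
    intro h hh
    rw [cong_cong] at hh
    exact hA _ hh

theorem big_self : B ∈ big B := Or.inl le_rfl

/-- A subgroup in `big B` which fixes a point of `G / B` is conjugate to `B`. -/
theorem eq_of_fixed {A : Subgroup G} (hA : A ∈ big B) (x : G ⧸ B) (hx : ∀ a ∈ A, a • x = x) :
    ∃ g : G, cong g A = B := by
  obtain ⟨g, rfl⟩ := QuotientGroup.mk_surjective x
  have h1 : cong g⁻¹ A ≤ B := by
    intro k hk
    have hk' : k ∈ Based.conj g⁻¹ A := hk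
    rw [Based.mem_conj, inv_inv] at hk'
    have h2 := hx _ hk'
    have h3 : ((g * k * g⁻¹ * g : G) : G ⧸ B) = (g : G ⧸ B) := h2
    rw [QuotientGroup.eq] at h3
    have h4 : (g * k * g⁻¹ * g)⁻¹ * g = k⁻¹ := by group
    rw [h4] at h3
    exact B.inv_mem_iff.1 h3
  refine ⟨g⁻¹, ?_⟩
  rcases hA with hA | hA
  · exact Subgroup.eq_of_le_of_card_ge h1 (by rwa [card_cong])
  · exact absurd h1 (hA g⁻¹)

theorem stabilizer_orbCx {Z : BSS} {n : ℕ} (y : (orbCx B Z).S n) (hy : y ≠ (orbCx B Z).pt n)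
    (D : Subgroup G) (hD : ∀ k : G, ((orbCx B Z).act k).f n y = y → k ∈ D) :
    Nat.card B ≤ Nat.card D := by
  have h1 : ∃ x, y.1 x ≠ Z.pt n := by
    by_contra hcon
    push Not at hcon
    exact hy (Subtype.ext (funext hcon))
  obtain ⟨x, hx⟩ := h1
  obtain ⟨g, rfl⟩ := QuotientGroup.mk_surjective x
  rw [← card_cong g B]
  refine Subgroup.card_le_of_le fun k hk => hD k ?_
  have hk' : k ∈ Based.conj g B := hk
  rw [Based.mem_conj] at hk'
  have h2 : k • (g : G ⧸ B) = (g : G ⧸ B) := by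
    change ((k * g : G) : G ⧸ B) = (g : G ⧸ B)
    rw [QuotientGroup.eq]
    have h4 : (k * g)⁻¹ * g = (g⁻¹ * k * g)⁻¹ := by group
    rw [h4]
    exact B.inv_mem hk'
  refine Subtype.ext (funext fun x' => ?_)
  change y.1 (k⁻¹ • x') = y.1 x'
  by_cases hx' : x' = (g : G ⧸ B)
  · rw [hx', inv_smul_eq_iff.2 h2.symm]
  · have h5 : k⁻¹ • x' ≠ (g : G ⧸ B) := by
      intro h
      apply hx'
      rw [inv_smul_eq_iff] at h
      rw [h, h2]
    rw [(y.2.1 _ _ h5).resolve_right hx, (y.2.1 _ _ hx').resolve_right hx]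

end

section

variable {p : ℕ} [hp : Fact p.Prime] {K : ℕ → Homology} {T : ℕ → Tel p}
  (hab : ∀ A : FiniteGrp.{0}, IsPGroup p A → IsMulCommutative A → ∀ n r,
    Smith (K (n + r)) (K n) (⊥ : Subgroup A) ↔ Group.rank A ≤ r)
  (halive : ∀ t, ∀ A : FiniteGrp.{0}, IsPGroup p A → ¬ (T t).Dead A →
    Smith (K (t + 1)) (K 0) (⊥ : Subgroup A))
include hab halive

theorem link {G : FiniteGrp.{0}} (hG : IsPGroup p G) {θ : Subgroup G → ℕ∞}
    (hθ : Comp θ) {L U : Subgroup G} (hLU : L ≤ U) (hn : (L.subgroupOf U).Normal)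
    (j m : ℕ) (hj : θ U ≤ j) (hm : θ L = (m + 1 : ℕ)) :
    LinkD T (U ⧸ L.subgroupOf U) m j := by
  intro t ht V ⟨e⟩
  by_contra hcon
  have hQ : IsPGroup p (U ⧸ L.subgroupOf U) := (hG.to_subgroup U).to_quotient _
  have hV : IsPGroup p V := hQ.of_equiv e.symm
  have h1 := ell_add_le_of_not_dead hab halive V hV t j
    (fun A h1 h2 h3 h4 => hcon ⟨A, h1, h2, h3, h4⟩)
  have h2 := ell_of_surjective hV e.toMonoidHom e.surjective
  have h3 := ell_rel_quotient (hG.to_subgroup U) (A := L) (B := U)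
  have h4 : ((m + 1 : ℕ) : ℕ∞) ≤ ((j + ell (L.subgroupOf U) : ℕ) : ℕ∞) := by
    rw [← hm, Nat.cast_add]
    exact (hθ.2 L U hLU).trans (add_le_add_left hj _)
  have h5 : m + 1 ≤ j + ell (L.subgroupOf U) := by exact_mod_cast h4
  omega

variable {B : ℕ → FiniteGrp.{0} → Homology}
  (hN : ∀ (t : ℕ) (V : FiniteGrp.{0}) (Y : BSS), Y.IsFin → ¬ (B t V).Acyclic Y →
    ∃ j, ¬ (K j).Acyclic Y ∧ ∀ A : FiniteGrp.{0}, IsPGroup p A → IsMulCommutative A →
      Group.rank A ≤ j → ¬ (T t).Dead (.of (V × A)))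
  (hR : ∀ W : FiniteGrp.{0}, IsPGroup p W → ∀ (S : GCx W) (r : ℕ), S.IsFin →
    (∀ V : Subgroup W, V ≠ ⊥ → ∀ t < r, FixAcyclic (B t (.of V)) S V) → Attachable K r S)
include hN hR

/-- A complex whose fixed points have type at least `θ`, with equality at `B₀`. -/
theorem exists_at {G : FiniteGrp.{0}} (hG : IsPGroup p G) {θ : Subgroup G → ℕ∞}
    (hθ : Comp θ) (B₀ : Subgroup G) (n : ℕ) (hn : θ B₀ = n) :
    ∃ X : GCx G, X.IsFin ∧ (∀ (A : Subgroup G) (j : ℕ), (j : ℕ∞) < θ A → FixAcyclic (K j) X A) ∧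
      ¬ FixAcyclic (K n) X B₀ := by
  obtain ⟨Z, hZ, hZ0, hZn⟩ := exists_type K hab n
  have hY : StB (fun n => acTh (K n)) n B₀ θ (big B₀) (gToB (orbCx B₀ Z)) := by
    refine ⟨isFin_gToB (orbCx_isFin B₀ Z hZ), ?_, ?_, ?_⟩
    · intro m y hy
      left
      exact stabilizer_orbCx B₀ (Z := Z) (n := m.unop.len) y hy
        (MulAction.stabilizer G y) fun k hk => hk
    · intro h
      have h1 := (fixAcyclic_orbCx B₀ Z (K n) B₀).1 ((fixAcyclic_gToB (K n) _ B₀).2 h)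
        ((1 : G) : G ⧸ B₀) (by
          intro a ha
          change ((a * 1 : G) : G ⧸ B₀) = ((1 : G) : G ⧸ B₀)
          rw [QuotientGroup.eq]
          simpa using ha)
      exact hZn h1
    · intro A hA j hj
      refine (fixAcyclic_gToB (K j) _ A).1 ((fixAcyclic_orbCx B₀ Z (K j) A).2 fun x hx => ?_)
      obtain ⟨g, hg⟩ := eq_of_fixed B₀ hA x hx
      have h1 := hθ.1 A g
      rw [hg, hn] at h1
      rw [← h1] at hj
      exact hZ0 j (by exact_mod_cast hj)
  obtain ⟨Y', hY'⟩ := loopB (fun n => acTh (K n)) hG (D := fun V _ m j => LinkD T V m j)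
    (fun V V' _ _ e m j h => LinkD.congr V V' e m j h)
    (realization_toB (acyclic_mono K hab) hN hR) n B₀ (θ := θ) (fun A g => (hθ.1 A g).le)
    (fun L U hLU hnor j m hj hm => link hab halive hG hθ hLU.le hnor j m hj hm)
    _ (big B₀) (gToB (orbCx B₀ Z)) hY (fun A hA A' h => big_up B₀ hA h)
    (fun A hA g => big_cong B₀ hA g) (big_self B₀) (by
      intro A hA h
      have h1 : ¬ (Nat.card B₀ ≤ Nat.card A ∨ ∀ g, ¬ cong g A ≤ B₀) := hA
      push Not at h1
      obtain ⟨_, g, hg⟩ := h1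
      have h2 := hθ.2 _ _ hg
      rw [hθ.1, h, hn, ← Nat.cast_add] at h2
      exact absurd (lt_of_lt_of_le (ENat.natCast_lt_top _) h2) (lt_irrefl _)) le_rfl
  refine ⟨gOfB Y', isFin_gOfB hY'.fin, fun A j hj => ?_, fun h => ?_⟩
  · exact (fixAcyclic_gOfB (K j) Y' A).2 (hY'.typ A (Set.mem_univ A) j hj)
  · exact hY'.top ((fixAcyclic_gOfB (K n) Y' B₀).1 h)

/-- Every compatible function is a type function. -/
theorem exists_of_comp {G : FiniteGrp.{0}} (hG : IsPGroup p G) {θ : Subgroup G → ℕ∞}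
    (hθ : Comp θ) : ∃ X : GCx G, X.IsFin ∧ ∀ A (j : ℕ), FixAcyclic (K j) X A ↔ (j : ℕ∞) < θ A := by
  have h1 : ∀ i : {B₀ : Subgroup G // θ B₀ ≠ ⊤}, ∃ (n : ℕ) (X : GCx G), θ i.1 = n ∧ X.IsFin ∧
      (∀ (A : Subgroup G) (j : ℕ), (j : ℕ∞) < θ A → FixAcyclic (K j) X A) ∧
      ¬ FixAcyclic (K n) X i.1 := by
    rintro ⟨B₀, hB₀⟩
    obtain ⟨n, hn⟩ := ENat.ne_top_iff_exists.1 hB₀
    obtain ⟨X, h⟩ := exists_at hab halive hN hR hG hθ B₀ n hn.symm
    exact ⟨n, X, hn.symm, h⟩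
  choose n X hn hfin hlt hne using h1
  refine ⟨wedG X, isFin_wedG X hfin, fun A j => ?_⟩
  rw [fixAcyclic_wedG X hfin]
  constructor
  · intro h
    by_contra hj
    rw [not_lt] at hj
    have hA : θ A ≠ ⊤ := fun hA => absurd (hA ▸ hj) (by simp)
    have h2 : n ⟨A, hA⟩ ≤ j := by
      have h3 := hn ⟨A, hA⟩
      rw [h3] at hj
      exact_mod_cast hj
    exact hne ⟨A, hA⟩ (fixAcyclic_mono hab (hfin _) h2 (h ⟨A, hA⟩))
  · intro h i
    exact hlt i A j h

end

end Vale.Agent.P241.H140
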