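import Vale.Agent.P241.H140.Defs

namespace Vale.Agent.P241.F

/-- The fixed-point loss `r_n(G, H)` of the sequence `K`: the least `r` such that
`K (n + r)`-acyclicity of `X ^ H` forces `K n`-acyclicity of `X ^ G` for all finite
`G`-complexes `X`. -/
noncomputable def loss (K : ℕ → Homology) (n : ℕ) {G : FiniteGrp.{0}} (H : Subgroup G) : ℕ∞ :=
  ⨅ (r : ℕ) (_ : Smith (K (n + r)) (K n) H), (r : ℕ∞)

end Vale.Agent.P241.F
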