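import Vale.Agent.P241.H140.UDefs
import Vale.Agent.P241.H140.Gen

/-! The listed values for abelian groups in terms of the loss, and the comparison of the loss with
its model `Lite`. -/

set_option autoImplicit false

namespace Vale.Agent.P241.H140

open Vale.Agent.P241.F

variable {p : ℕ} (K : ℕ → Homology)

theorem loss_toL (n : ℕ) {G : FiniteGrp.{0}} (H : Subgroup G) :
    Lite.loss (fun n => (K n).toL) n H = F.loss K n H :=
  iInf_congr fun _ => iInf_congr_Prop (smith_toL _ _ H) fun _ => rfl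

theorem cycLen_eq_ell {G : Type} [Group G] (H : Subgroup G) : Lite.cycLen H ⊤ = ell H :=
  congrArg sInf (Set.ext fun _ => isChain_iff.symm)

/-- The listed values for abelian `p`-groups. -/
def AbLoss (p : ℕ) (K : ℕ → Homology) : Prop :=
  ∀ A : FiniteGrp.{0}, IsPGroup p A → IsMulCommutative A → ∀ n,
    F.loss K n (⊥ : Subgroup A) = Group.rank A

variable {K}

theorem AbLoss.toL (h : AbLoss p K) : Lite.AbelianValues p (fun n => (K n).toL) := by
  intro A _ _ hA n
  have hc : IsMulCommutative (FiniteGrp.of A) := ⟨⟨fun x y => mul_comm (G := A) x y⟩⟩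
  exact (loss_toL K n (G := .of A) ⊥).trans (h (.of A) hA hc n)

variable [Fact p.Prime]

theorem AbLoss.triv (h : AbLoss p K) (T : Type) [Group T] [Finite T] [Subsingleton T] (n r : ℕ) :
    Lite.Smith (K (n + r)).toL (K n).toL (⊥ : Subgroup T) := by
  have hP : IsPGroup p T := fun x => ⟨0, Subsingleton.elim _ _⟩
  refine Lite.Smith.of_chain (K := fun n => (K n).toL) (Lite.cyclic_of_abelian h.toL) hP
    (s := r) ?_ n
  refine ⟨fun _ => ⊥, rfl, Subsingleton.elim _ _, fun i _ => ⟨le_rfl, ?_⟩⟩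
  have hN : ((⊥ : Subgroup T).subgroupOf ⊥).Normal := by
    rw [Subgroup.subgroupOf_self]
    infer_instance
  refine ⟨hN, ?_⟩
  have hs : Subsingleton ((⊥ : Subgroup T) ⧸ (⊥ : Subgroup T).subgroupOf ⊥) := by
    rw [Subgroup.subgroupOf_self]
    exact QuotientGroup.subsingleton_quotient_top
  exact isCyclic_of_subsingleton

theorem AbLoss.mono (hab : AbLoss p K) {G : FiniteGrp.{0}} {n s r : ℕ}
    {H : Subgroup G} (h : Smith (K (n + s)) (K n) H) (hsr : s ≤ r) :
    Smith (K (n + r)) (K n) H := by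
  obtain ⟨d, rfl⟩ := Nat.exists_eq_add_of_le hsr
  rw [← smith_toL, Lite.smith_iff_adm] at h ⊢
  intro P hP
  apply h P
  have hN : (H.subgroupOf H).Normal := by
    rw [Subgroup.subgroupOf_self]
    infer_instance
  have hsub : Subsingleton (H ⧸ H.subgroupOf H) := by
    rw [Subgroup.subgroupOf_self]
    exact QuotientGroup.subsingleton_quotient_top
  have h1 := hab.triv (H ⧸ H.subgroupOf H) (n + s) d
  rw [Lite.smith_iff_adm] at h1
  rw [← Nat.add_assoc] at hP
  exact Adm.of_step (Lite.acClass _) (Lite.acClass _) le_rfl h1 P hP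

theorem AbLoss.smith (h : AbLoss p K) (A : FiniteGrp.{0}) (hA : IsPGroup p A)
    (hc : IsMulCommutative A) (n r : ℕ) :
    Smith (K (n + r)) (K n) (⊥ : Subgroup A) ↔ Group.rank A ≤ r := by
  have key : ∀ r, Smith (K (n + r)) (K n) (⊥ : Subgroup A) → Group.rank A ≤ r := by
    intro r hs
    have h1 : F.loss K n (⊥ : Subgroup A) ≤ r := iInf₂_le r hs
    rw [h A hA hc n] at h1
    exact_mod_cast h1
  refine ⟨key r, fun hr => h.mono ?_ hr⟩
  by_contra hn
  have h2 : ((Group.rank A + 1 : ℕ) : ℕ∞) ≤ F.loss K n (⊥ : Subgroup A) := by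
    refine le_iInf₂ fun s hs => ?_
    have h3 := key s hs
    have h4 : Group.rank A ≠ s := by
      rintro rfl
      exact hn hs
    exact_mod_cast (by omega : Group.rank A + 1 ≤ s)
  rw [h A hA hc n] at h2
  have h5 : Group.rank A + 1 ≤ Group.rank A := by exact_mod_cast h2
  omega

omit [Fact p.Prime] in
theorem rank_le_loss' {k : ℕ → Lite.Homology} (hab : Lite.AbelianValues p k) {G : Type} [Group G]
    [Finite G] {H : Subgroup G} (n : ℕ) {L V : Type} [Group L] [gV : Group V] [Finite V]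
    (hV : IsPGroup p V) (hc : IsMulCommutative V) (φ : L →* G) (ψ : L →* V)
    (hψ : Function.Surjective ψ) (h : ∀ x, φ x ∈ H → ψ x = 1) :
    Group.rank V ≤ Lite.loss k n H :=
  @Lite.rank_le_loss k G _ p hab _ H n L V _
    { gV with mul_comm := fun a b => hc.is_comm.comm a b } _ hV φ ψ hψ h

theorem loss_eq' {k : ℕ → Lite.Homology} (hab : Lite.AbelianValues p k) {G : Type} [Group G]
    [Finite G] (hG : IsPGroup p G) {H : Subgroup G} (n : ℕ) {L V : Type} [Group L] [gV : Group V]
    [Finite V] (hV : IsPGroup p V) (hc : IsMulCommutative V) (φ : L →* G) (ψ : L →* V)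
    (hψ : Function.Surjective ψ) (h : ∀ x, φ x ∈ H → ψ x = 1)
    (hind : H.index = p ^ Group.rank V) :
    Lite.loss k n H = Lite.cycLen H ⊤ ∧ Lite.cycLen H ⊤ = Group.rank V :=
  @Lite.loss_eq k G _ p _ (Lite.cyclic_of_abelian hab) hab _ hG H n L V _
    { gV with mul_comm := fun a b => hc.is_comm.comm a b } _ hV φ ψ hψ h hind

omit [Fact p.Prime] in
theorem loss_eq_of_iff {G : FiniteGrp.{0}} {H : Subgroup G} {n : ℕ} {e : ℕ}
    (h : ∀ r, Smith (K (n + r)) (K n) H ↔ e ≤ r) : F.loss K n H = e := by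
  refine le_antisymm (iInf₂_le e ((h e).2 le_rfl)) (le_iInf₂ fun s hs => ?_)
  exact_mod_cast (h s).1 hs

end Vale.Agent.P241.H140
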